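import Vale.Agent.P219.N2.Real

/-! # P219, dimension two: the model circle -/

open MeasureTheory Set Metric
open scoped ENNReal ContDiff

namespace Vale.Agent.P219.N2

open Vale.Agent.P219.TP Vale.Agent.P219.TPH

theorem C2_eq (k R : ℝ) : C2 k R = Real.pi * sn k (R / 2) / cs k (R / 2) := by
  unfold C2
  split_ifs with h
  · subst h
    simp [h1_sn_z, cs]
    ring
  · rw [Real.tanh_eq_sinh_div_cosh]
    simp only [h1_sn_nz h, cs]
    have := Real.cosh_pos (k * (R / 2))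
    rw [show k * R / 2 = k * (R / 2) by ring]
    field_simp

/-- The integral over the directions, on the sphere. -/
theorem sphere_fR {k R : ℝ} (hk : 0 ≤ k) (hR : 0 < R) {e : E 2} (he : ‖e‖ = 1) :
    ∫ u : sphere (0 : E 2) 1, max 0 (inner ℝ e (u : E 2)) * fR k R (max 0 (inner ℝ e (u : E 2)))
      ∂((volume : Measure (E 2)).toSphere) = C2 k R := by
  have hc : Continuous fun s : ℝ => s * fR k R s := continuous_id.mul (continuous_fR hk hR)
  rw [circle hc he, integral_fR hk hR, zero_mul, mul_zero, add_zero]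

/-- The same with `f s * s`. -/
theorem sphere_fR' {k R : ℝ} (hk : 0 ≤ k) (hR : 0 < R) {e : E 2} (he : ‖e‖ = 1) :
    ∫ u : sphere (0 : E 2) 1, fR k R (max 0 (inner ℝ e (u : E 2))) * max 0 (inner ℝ e (u : E 2))
      ∂((volume : Measure (E 2)).toSphere) = C2 k R := by
  rw [← sphere_fR hk hR he]
  exact integral_congr_ae (Filter.Eventually.of_forall fun u => mul_comm _ _)

theorem sphere_fR_lintegral {k R : ℝ} (hk : 0 ≤ k) (hR : 0 < R) {e : E 2} (he : ‖e‖ = 1) :
    ∫⁻ u : sphere (0 : E 2) 1, ENNReal.ofReal (max 0 (inner ℝ e (u : E 2)) *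
      fR k R (max 0 (inner ℝ e (u : E 2)))) ∂((volume : Measure (E 2)).toSphere) =
      ENNReal.ofReal (C2 k R) := by
  rw [← sphere_fR hk hR he, ofReal_integral_eq_lintegral_ofReal]
  · have hc : Continuous fun u : sphere (0 : E 2) 1 => max 0 (inner ℝ e (u : E 2)) *
        fR k R (max 0 (inner ℝ e (u : E 2))) := by
      have h1 : Continuous fun u : sphere (0 : E 2) 1 => max 0 (inner ℝ e (u : E 2)) := by fun_prop
      exact h1.mul ((continuous_fR hk hR).comp h1)
    exact hc.integrable_of_hasCompactSupport (HasCompactSupport.of_compactSpace _)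
  · exact Filter.Eventually.of_forall fun u =>
      mul_nonneg (le_max_left _ _) (fR_nonneg hk hR _)

theorem sig_two : sig 2 = 2 * Real.pi := by
  have h := circle (F := fun _ => (1 : ℝ)) continuous_const
    (e := EuclideanSpace.single (0 : Fin 2) (1 : ℝ)) (by simp)
  simp only [integral_const, smul_eq_mul, mul_one, intervalIntegral.integral_const] at h
  unfold sig
  rw [h]
  ring

theorem VR_two (k R : ℝ) : VR 2 k R = 2 * Real.pi * cc k R := by
  unfold VR
  rw [sig_two, ← integral_sn]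
  simp only [Nat.reduceSub, pow_one]

theorem AR_two (k R : ℝ) : AR 2 k R = 2 * Real.pi * sn k R := by
  unfold AR
  rw [sig_two]
  simp only [Nat.reduceSub, pow_one]

theorem sig_two_VR (k R : ℝ) : VR 2 k R = 4 * Real.pi * sn k (R / 2) ^ 2 := by
  rw [VR_two, cc_two]
  ring

/-- `A² = 4 π V + k² V²`. -/
theorem AR_sq (k R : ℝ) : AR 2 k R ^ 2 = 4 * Real.pi * VR 2 k R + k ^ 2 * VR 2 k R ^ 2 := by
  rw [AR_two, sig_two_VR, sn_two]
  have h := cs_sq k (R / 2)
  have e : (2 * Real.pi * (2 * (sn k (R / 2) * cs k (R / 2)))) ^ 2 =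
      16 * Real.pi ^ 2 * sn k (R / 2) ^ 2 * cs k (R / 2) ^ 2 := by ring
  rw [e, h]
  ring

/-- `ct V + 2 C = A`. -/
theorem ct_VR {k R : ℝ} (hk : 0 ≤ k) (hR : 0 < R) :
    ct k R * VR 2 k R + 2 * C2 k R = AR 2 k R := by
  have h := cs_sq k (R / 2)
  have hs : 0 < sn k (R / 2) := sn_pos hk (half_pos hR)
  have hc : 0 < cs k (R / 2) := zero_lt_one.trans_le (one_le_cs _ _)
  have h2 : cs k R = 2 * cs k (R / 2) ^ 2 - 1 := by
    have := cs_two k R
    linarith
  unfold ct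
  rw [AR_two, sig_two_VR, sn_two, h2, C2_eq]
  field_simp
  have h3 : k ^ 2 * sn k (R / 2) ^ 2 = cs k (R / 2) ^ 2 - 1 := by linarith
  ring

/-- `A (ct V + 2 C) = 4 π V + k² V²`. -/
theorem model_id {k R : ℝ} (hk : 0 ≤ k) (hR : 0 < R) :
    AR 2 k R * (ct k R * VR 2 k R + 2 * C2 k R) =
      4 * Real.pi * VR 2 k R + k ^ 2 * VR 2 k R ^ 2 := by
  rw [ct_VR hk hR, ← AR_sq]
  ring

/-- The same with `lam = ct / 2`. -/
theorem model_id' {k R : ℝ} (hk : 0 ≤ k) (hR : 0 < R) :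
    AR 2 k R * (ct k R / 2 * VR 2 k R + C2 k R) =
      2 * Real.pi * VR 2 k R + k ^ 2 / 2 * VR 2 k R ^ 2 := by
  have h := model_id hk hR
  linarith

/-- The conclusion. -/
theorem AR_le_of {k R P : ℝ} (hk : 0 ≤ k) (hR : 0 < R)
    (h : 4 * Real.pi * VR 2 k R + k ^ 2 * VR 2 k R ^ 2 ≤
      P * (ct k R * VR 2 k R + 2 * C2 k R)) : AR 2 k R ≤ P := by
  have hA : 0 < AR 2 k R := AR_pos (by norm_num) hk hR
  rw [ct_VR hk hR, ← AR_sq, sq] at h
  exact le_of_mul_le_mul_right h hA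

theorem AR_le_of' {k R P : ℝ} (hk : 0 ≤ k) (hR : 0 < R)
    (h : 2 * Real.pi * VR 2 k R + k ^ 2 / 2 * VR 2 k R ^ 2 ≤
      P * (ct k R / 2 * VR 2 k R + C2 k R)) : AR 2 k R ≤ P := by
  apply AR_le_of hk hR
  linarith

theorem C2_pos {k R : ℝ} (hk : 0 ≤ k) (hR : 0 < R) : 0 < C2 k R := by
  rw [C2_eq]
  have hs : 0 < sn k (R / 2) := sn_pos hk (half_pos hR)
  have hc : 0 < cs k (R / 2) := zero_lt_one.trans_le (one_le_cs _ _)
  have := Real.pi_pos
  positivity

end Vale.Agent.P219.N2
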