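import Vale.Agent.P219.N2.Fin
import Vale.Agent.P219.N2.Real2

/-! # `n = 2`: the functional isoperimetric inequality, all curvatures `≤ -k²` -/

open MeasureTheory Set Metric
open scoped ENNReal ContDiff

namespace Vale.Agent.P219.N2

open Vale.Agent.P219.TP Vale.Agent.P219.TPH

/-- The scalar data. -/
noncomputable def scal {k R : ℝ} (hk : 0 ≤ k) (hR : 0 < R) : Scal k R where
  C := C2 k R
  f := fR k R
  C_nonneg := (C2_pos hk hR).le
  f_cont := continuous_fR hk hR
  f_nonneg := fun s _ => fR_nonneg hk hR s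
  s1 := fun _ hs => (lintegral_gg hk hR hs.1 hs.2).le
  hC := fun _ he => (sphere_fR hk hR he).le
  bal := (ct_VR hk hR).le

end Vale.Agent.P219.N2

namespace Vale.Agent.P219.SA

open Vale.Agent.P219.TP Vale.Agent.P219.TPH

/-- **The isoperimetric inequality in dimension two**, curvature at most `-k²`. -/
theorem funcIso_two {k : ℝ} (hk : 0 ≤ k) : FuncIso 2 k :=
  N2.funcIso_two_of hk fun _ hR => ⟨N2.scal hk hR⟩

end Vale.Agent.P219.SA
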