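import Vale.Agent.P219.N2.RigC
import Vale.Agent.P219.SR.RigHfr
import Vale.Agent.P219.SR.RigSeq

/-! # `n = 2`, equality case: the chord relations at a boundary point -/

open MeasureTheory Set Metric Filter Topology
open scoped ENNReal ContDiff

noncomputable section

namespace Vale.Agent.P219.CH

theorem r2_in {n : ℕ} (D : SmoothDomain n) {x : E n} (hx : x ∈ D.carrier) :
    ∀ᶠ z in (atTop : Filter ℕ) ×ˢ 𝓝 x, Feps D (1 / ((z.1 : ℝ) + 1)) z.2 = 1 := by
  have hρ : D.ρ x < 0 := hx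
  have h1 : ∀ᶠ j : ℕ in atTop, 1 / ((j : ℝ) + 1) < -D.ρ x / 2 :=
    (tendsto_one_div_add_atTop_nhds_zero_nat (𝕜 := ℝ)).eventually
      (gt_mem_nhds (by linarith))
  have h2 : ∀ᶠ y in 𝓝 x, D.ρ y < D.ρ x / 2 :=
    D.smooth.continuous.continuousAt.eventually (gt_mem_nhds (by linarith))
  filter_upwards [h1.prod_mk h2] with z hz
  have hε : (0 : ℝ) < 1 / ((z.1 : ℝ) + 1) := by positivity
  apply Real.smoothTransition.one_of_one_le
  rw [le_div_iff₀ hε]
  linarith [hz.1, hz.2]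

theorem r2_out {n : ℕ} (D : SmoothDomain n) {x : E n} (hx : x ∉ closure D.carrier) :
    ∀ᶠ z in (atTop : Filter ℕ) ×ˢ 𝓝 x, Feps D (1 / ((z.1 : ℝ) + 1)) z.2 = 0 := by
  have h2 : ∀ᶠ y in 𝓝 x, y ∈ (closure D.carrier)ᶜ :=
    isClosed_closure.isOpen_compl.mem_nhds hx
  have h1 : ∀ᶠ _j : ℕ in (atTop : Filter ℕ), True := Eventually.of_forall fun _ => trivial
  filter_upwards [h1.prod_mk h2] with z hz
  exact Feps_eq_zero D (by positivity) fun h => hz.2 (subset_closure h)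

/-- A boundary point is a limit of exterior points. -/
theorem r2_ext {n : ℕ} (D : SmoothDomain n) {q : E n} (hq : q ∈ frontier D.carrier) :
    q ∈ closure (closure D.carrier)ᶜ := by
  by_contra hcon
  rw [closure_compl, mem_compl_iff, not_not] at hcon
  rw [frontier_carrier] at hq
  have h0 : D.ρ q = 0 := hq.1
  have hsub : closure D.carrier ⊆ {x | D.ρ x ≤ 0} :=
    closure_minimal (fun y (hy : D.ρ y < 0) => show D.ρ y ≤ 0 from hy.le)
      (isClosed_le D.smooth.continuous continuous_const)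
  have hmax : IsLocalMax D.ρ q := by
    filter_upwards [isOpen_interior.mem_nhds hcon] with x hx
    rw [h0]
    exact hsub (interior_subset hx)
  exact D.regular q h0 hmax.fderiv_eq_zero

theorem r2_pair (M : RiemMetric 2) (e : Fin 2 → E 2 → E 2) (he : TriangularFrame M e)
    (hs : SecLE M 0) (F : GFlow M.g) {k : ℝ} (hk : 0 ≤ k)
    (hcurv : TPH.MonoSn (toGeo M e he hs F) k) (D : SmoothDomain 2) {r : ℝ} (hr : 0 < r)
    (hV : riemVol M D.carrier = ENNReal.ofReal (TPH.VR 2 k r))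
    (hA : riemArea M D ≤ ENNReal.ofReal (TPH.AR 2 k r)) :
    ∃ p N : E 2, ‖N‖ = 1 ∧ ∀ q ∈ frontier D.carrier, q ≠ p →
      N2.rB k (N2.ct k r) N ((toGeo M e he hs F).lg p q) = 0 ∧
      ‖(toGeo M e he hs F).lg p q‖ *
        ((toGeo M e he hs F).T p ((toGeo M e he hs F).lg p q)).det =
        TPH.sn k ‖(toGeo M e he hs F).lg p q‖ := by
  have hVpos : 0 < TPH.VR 2 k r := by
    have h1 := TPH.VR_strictMonoOn (n := 2) (k := k) (by norm_num) hk (mem_Ici.2 le_rfl)
      (mem_Ici.2 hr.le) hr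
    rwa [TPH.VR_zero] at h1
  have hApos : 0 < TPH.AR 2 k r := TPH.AR_pos (by norm_num) hk hr
  have hper := feps_per M e he hs F le_rfl D hApos.le hA
  obtain ⟨hv1, hlay⟩ := rs_V1 M e he hs F le_rfl D hVpos.le hV
  have hne : D.carrier.Nonempty := rcm_ne M D hVpos hV
  have hopen : IsOpen D.carrier := isOpen_lt D.smooth.continuous continuous_const
  set G := toGeo M e he hs F with hG
  have heps : ∀ j : ℕ, (0 : ℝ) < 1 / ((j : ℝ) + 1) := fun j => by positivity
  obtain ⟨p, hp⟩ : (frontier D.carrier).Nonempty := by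
    rw [nonempty_frontier_iff]
    refine ⟨hne, ?_⟩
    intro hu
    have h1 := D.bdd
    have h2 : {x | D.ρ x < 0} = univ := hu
    rw [h2] at h1
    exact NormedSpace.unbounded_univ ℝ (E 2) h1
  have hρp : D.ρ p = 0 := by
    rw [frontier_carrier] at hp
    exact hp.1
  obtain ⟨hNc, hN1⟩ := nrm_norm G D hρp
  have hNp : ‖nrm G D.ρ p‖ = 1 := hN1.self_of_nhds
  set h : ℕ → E 2 → ℝ := fun j => Feps D (1 / ((j : ℝ) + 1)) with hh
  have hsm : ∀ j, ContDiff ℝ 1 (h j) := fun j => (Feps_smooth D _).of_le (by simp)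
  have hcs : ∀ j, HasCompactSupport (h j) := fun j => Feps_compact D (heps j)
  have hct := N2.lt_ct hk hr
  have htot := N2.rtotal_tendsto (G := G) (ct := N2.ct k r) hk hcurv hct.le
    (CC := 2 * N2.C2 k r) (by have := N2.C2_pos hk hr; positivity)
    (fun N hN => N2.rCC hk hr hN) hApos.le hVpos.le (N2.rbal hk hr) hsm hcs
    (fun j => Feps_nonneg D _) (fun j => Feps_le_one D _) (N := nrm G D.ρ)
    (fun j y => D_feps G D (heps j) y) hper hv1 hlay
  have hsel : ∀ m : ℕ, ∃ j, m ≤ j ∧ ∃ y ∈ ball p (1 / ((m : ℝ) + 1)), G.D (h j) y ≠ 0 ∧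
      N2.rDD G k (N2.ct k r) (h j) (nrm G D.ρ y) y ≤ ENNReal.ofReal (1 / ((m : ℝ) + 1)) := by
    intro m
    obtain ⟨c, hc, hev⟩ := feps_lower G (by norm_num) D hρp
      (U := ball p (1 / ((m : ℝ) + 1))) (ball_mem_nhds p (heps m))
    exact N2.rselect hsm hcs htot measurableSet_ball hc hev (heps m) m
  choose j hj y hy hD hdd using hsel
  have hjt : Tendsto j atTop atTop := tendsto_atTop_mono hj tendsto_id
  have hyt : Tendsto y atTop (𝓝 p) := by
    rw [tendsto_iff_dist_tendsto_zero]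
    exact squeeze_zero (fun _ => dist_nonneg) (fun m => (mem_ball.1 (hy m)).le)
      tendsto_one_div_add_atTop_nhds_zero_nat
  have hpt := N2.rfatou (G := G) (ct := N2.ct k r) hk hcurv hct.le hopen hsm
    (fun j => Feps_nonneg D _) (fun j => Feps_le_one D _) (fun x hx => r2_in D hx)
    (fun x hx => r2_out D hx) hNc hNp hjt hyt hD hdd
  refine ⟨p, nrm G D.ρ p, hNp, fun q hq hqp => ?_⟩
  exact hpt.pair hk hcurv hct hNp (frontier_subset_closure hq) (r2_ext D hq) hqp

/-- `K = 0`. -/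
theorem hfrFlat_two : HfrFlat 2 := by
  intro M e he hs F D r hr hV hA
  rw [rcm_vol0 (by norm_num)] at hV
  have hA' : riemArea M D ≤ ENNReal.ofReal (TPH.AR 2 0 r) := by
    refine hA.trans (le_of_eq ?_)
    congr 1
    unfold modelArea TPH.AR
    rw [TP.sig_eq (by norm_num), om_eq, rs_sn_zero]
  obtain ⟨p, N, hN, h⟩ := r2_pair M e he hs F le_rfl (TPH.MonoSn.zero _) D hr hV hA'
  refine ⟨p, N, hN, fun q hq hqp => ?_⟩
  obtain ⟨h1, h2⟩ := h q hq hqp
  set G := toGeo M e he hs F with hG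
  set v := G.lg p q with hv
  have hv0 : v ≠ 0 := by
    intro h0
    apply hqp
    have := G.ex_lg p q
    rw [← hv, h0, G.ex_zero] at this
    exact this.symm
  have hvp : 0 < ‖v‖ := norm_pos_iff.2 hv0
  unfold N2.rB N2.ct N2.rs at h1
  rw [TPH.h1_sn_z] at h1 h2
  simp only [TPH.cs, zero_mul, Real.cosh_zero] at h1 h2
  constructor
  · have hpos : 0 < max 0 (inner ℝ N (‖v‖⁻¹ • v)) := by
      have : 0 < 1 / r * ‖v‖ := by positivity
      nlinarith
    have hmax : max 0 (inner ℝ N (‖v‖⁻¹ • v)) = inner ℝ N (‖v‖⁻¹ • v) := by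
      rcases max_choice 0 (inner ℝ N (‖v‖⁻¹ • v)) with h3 | h3
      · rw [h3] at hpos
        exact absurd hpos (lt_irrefl _)
      · exact h3
    rw [hmax, real_inner_smul_right] at h1
    rw [real_inner_comm]
    have h4 : ‖v‖⁻¹ * inner ℝ N v * (1 + 1) = 1 / r * ‖v‖ := by linarith
    field_simp at h4
    nlinarith
  · have h3 : ‖v‖ * (G.T p v).det = ‖v‖ * 1 := by rw [h2, mul_one]
    rw [mul_left_cancel₀ hvp.ne' h3, abs_one]

/-- `K = -1`. -/
theorem hfrHyp_two : HfrHyp 2 := by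
  intro M e he hs F D r hr hV hA
  rw [rcm_vol1 (by norm_num)] at hV
  have hA' : riemArea M D ≤ ENNReal.ofReal (TPH.AR 2 1 r) := by
    refine hA.trans (le_of_eq ?_)
    congr 1
    unfold modelArea TPH.AR
    rw [TP.sig_eq (by norm_num), om_eq, rs_sn_one]
  obtain ⟨p, N, hN, h⟩ := r2_pair M e he (secLE_zero hs) F zero_le_one
    (TPH.curv_of_geoH (toGeoH M e he hs F le_rfl)).monoSn D hr hV hA'
  refine ⟨p, N, hN, fun q hq hqp => ?_⟩
  obtain ⟨h1, h2⟩ := h q hq hqp
  set G := toGeo M e he (secLE_zero hs) F with hG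
  set v := G.lg p q with hv
  have hv0 : v ≠ 0 := by
    intro h0
    apply hqp
    have := G.ex_lg p q
    rw [← hv, h0, G.ex_zero] at this
    exact this.symm
  have hvp : 0 < ‖v‖ := norm_pos_iff.2 hv0
  have hsn : ∀ x : ℝ, TPH.sn 1 x = Real.sinh x := fun x => by simp [TPH.sn]
  unfold N2.rB N2.ct N2.rs at h1
  rw [hsn, hsn] at h1
  rw [hsn] at h2
  simp only [TPH.cs, one_mul] at h1
  constructor
  · have hsr : 0 < Real.sinh r := Real.sinh_pos_iff.2 hr
    have hsv : 0 < Real.sinh ‖v‖ := Real.sinh_pos_iff.2 hvp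
    have hcr := Real.cosh_pos r
    have hcv := Real.cosh_pos ‖v‖
    have hpos : 0 < max 0 (inner ℝ N (‖v‖⁻¹ • v)) := by
      have h3 : 0 < Real.cosh r / Real.sinh r * Real.sinh ‖v‖ := by positivity
      have h4 : 0 < max 0 (inner ℝ N (‖v‖⁻¹ • v)) * (1 + Real.cosh ‖v‖) := by linarith
      exact (pos_iff_pos_of_mul_pos h4).2 (by linarith)
    have hmax : max 0 (inner ℝ N (‖v‖⁻¹ • v)) = inner ℝ N (‖v‖⁻¹ • v) := by
      rcases max_choice 0 (inner ℝ N (‖v‖⁻¹ • v)) with h3 | h3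
      · rw [h3] at hpos
        exact absurd hpos (lt_irrefl _)
      · exact h3
    rw [hmax, real_inner_smul_right] at h1
    rw [real_inner_comm]
    have e1 : Real.cosh ‖v‖ = 2 * Real.cosh (‖v‖ / 2) ^ 2 - 1 := by
      have h3 := Real.cosh_two_mul (‖v‖ / 2)
      rw [show 2 * (‖v‖ / 2) = ‖v‖ by ring] at h3
      have h4 := Real.cosh_sq (‖v‖ / 2)
      linarith
    have e2 : Real.sinh ‖v‖ = 2 * Real.sinh (‖v‖ / 2) * Real.cosh (‖v‖ / 2) := by
      have h3 := Real.sinh_two_mul (‖v‖ / 2)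
      rwa [show 2 * (‖v‖ / 2) = ‖v‖ by ring] at h3
    have hc2 := Real.cosh_pos (‖v‖ / 2)
    rw [e1, e2] at h1
    have h5 : ‖v‖⁻¹ * inner ℝ N v * (2 * Real.cosh (‖v‖ / 2) ^ 2) =
        Real.cosh r / Real.sinh r * (2 * Real.sinh (‖v‖ / 2) * Real.cosh (‖v‖ / 2)) := by
      linarith
    field_simp at h5
    nlinarith
  · have h3 : |(G.T p v).det| = (G.T p v).det := abs_of_pos (TPH.det_T_pos G p v)
    simp only [Nat.add_one_sub_one, pow_one]
    rw [h3, mul_comm]
    exact h2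

end Vale.Agent.P219.CH

namespace Vale.Agent.P219.Co

/-- **The equality case in dimension two**, all `κ ≤ 0`. -/
theorem equality_two (M : RiemMetric 2) (hc : GeodesicallyComplete M) {κ : ℝ} (hκ : κ ≤ 0)
    (hs : SecLE M κ) (D : SmoothDomain 2) (r : ℝ) (hr : 0 ≤ r)
    (hV : riemVol M D.carrier = ENNReal.ofReal (modelVol 2 κ r))
    (hA : riemArea M D = ENNReal.ofReal (modelArea 2 κ r)) : IsometricToBallK M κ D r :=
  equality_of_hfr le_rfl CH.hfrFlat_two CH.hfrHyp_two M hc hκ hs D r hr hV hA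

end Vale.Agent.P219.Co
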