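import Vale.Agent.P219.TP.Moments

/-! # Zonal integrals on the circle -/

open MeasureTheory Set Metric
open scoped ENNReal ContDiff

namespace Vale.Agent.P219.N2

open Vale.Agent.P219.TP

theorem ci_gauss : ∫ r in Ioi (0 : ℝ), r ^ (2 - 1) * Real.exp (-r ^ 2) = 1 / 2 := by
  have h := integral_rpow_mul_exp_neg_rpow (p := 2) (q := 1) (by norm_num) (by norm_num)
  have e : ∀ r : ℝ, r ^ (2 - 1) * Real.exp (-r ^ 2) =
      r ^ (1 : ℝ) * Real.exp (-r ^ (2 : ℝ)) := by
    intro r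
    rw [Real.rpow_one]
    norm_num
  simp_rw [e]
  rw [h]
  norm_num [Real.Gamma_one]

/-- the plane integral in polar coordinates -/
theorem ci_plane (F : ℝ → ℝ) :
    ∫ p : ℝ × ℝ, F (max 0 (p.1 / √(p.1 ^ 2 + p.2 ^ 2))) * Real.exp (-(p.1 ^ 2 + p.2 ^ 2)) =
      (∫ t in Ioo (-Real.pi) Real.pi, F (max 0 (Real.cos t))) * (1 / 2) := by
  rw [← integral_comp_polarCoord_symm]
  rw [← ci_gauss, mul_comm]
  have h1 := setIntegral_prod_mul (μ := (volume : Measure ℝ)) (ν := (volume : Measure ℝ))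
    (fun r : ℝ => r ^ (2 - 1) * Real.exp (-r ^ 2))
    (fun t : ℝ => F (max 0 (Real.cos t))) (Ioi (0 : ℝ)) (Ioo (-Real.pi) Real.pi)
  rw [← h1, polarCoord_target]
  refine setIntegral_congr_fun (measurableSet_Ioi.prod measurableSet_Ioo) ?_
  intro p hp
  have hr : 0 < p.1 := hp.1
  simp only [polarCoord_symm_apply, smul_eq_mul]
  have e1 : (p.1 * Real.cos p.2) ^ 2 + (p.1 * Real.sin p.2) ^ 2 = p.1 ^ 2 := by
    nlinarith [Real.cos_sq_add_sin_sq p.2]
  rw [e1, Real.sqrt_sq hr.le, mul_div_cancel_left₀ _ hr.ne']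
  norm_num
  ring

theorem ci_circle (F : ℝ → ℝ) {e : E 2} (he : ‖e‖ = 1) :
    ∫ u : sphere (0 : E 2) 1, F (max 0 (inner ℝ e (u : E 2)))
      ∂((volume : Measure (E 2)).toSphere) =
      ∫ t in Ioo (-Real.pi) Real.pi, F (max 0 (Real.cos t)) := by
  have h1 := polar_sep (n := 2) (by norm_num)
    (fun x : E 2 => F (max 0 (inner ℝ e x / ‖x‖)) * Real.exp (-‖x‖ ^ 2))
    (fun u : sphere (0 : E 2) 1 => F (max 0 (inner ℝ e (u : E 2))))
    (fun r => Real.exp (-r ^ 2)) (by
      intro u r hr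
      have hu : ‖(u : E 2)‖ = 1 := by simp
      simp only [inner_smul_right, norm_smul, hu, mul_one, Real.norm_eq_abs, abs_of_pos hr]
      rw [mul_div_cancel_left₀ _ hr.ne'])
  rw [ci_gauss] at h1
  obtain ⟨b, hb⟩ := exists_basis 1 he
  have h2 : ∫ x : E 2, F (max 0 (inner ℝ e x / ‖x‖)) * Real.exp (-‖x‖ ^ 2) =
      ∫ y : E 2, F (max 0 (y 0 / ‖y‖)) * Real.exp (-‖y‖ ^ 2) := by
    have := b.repr.measurePreserving.integral_comp
      b.repr.toHomeomorph.measurableEmbedding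
      (fun y : E 2 => F (max 0 (y 0 / ‖y‖)) * Real.exp (-‖y‖ ^ 2))
    rw [← this]
    apply integral_congr_ae
    refine .of_forall fun x => ?_
    simp only [LinearIsometryEquiv.norm_map]
    rw [OrthonormalBasis.repr_apply_apply, hb]
  have h3 : ∫ y : E 2, F (max 0 (y 0 / ‖y‖)) * Real.exp (-‖y‖ ^ 2) =
      ∫ y : Fin 2 → ℝ, F (max 0 (y 0 / √(y 0 ^ 2 + y 1 ^ 2))) *
        Real.exp (-(y 0 ^ 2 + y 1 ^ 2)) := by
    have := (PiLp.volume_preserving_ofLp (Fin 2)).integral_comp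
      (MeasurableEquiv.toLp 2 (Fin 2 → ℝ)).symm.measurableEmbedding
      (fun y : Fin 2 → ℝ => F (max 0 (y 0 / √(y 0 ^ 2 + y 1 ^ 2))) *
        Real.exp (-(y 0 ^ 2 + y 1 ^ 2)))
    rw [← this]
    apply integral_congr_ae
    refine .of_forall fun x => ?_
    have e1 : ‖x‖ ^ 2 = x 0 ^ 2 + x 1 ^ 2 := by
      rw [EuclideanSpace.norm_sq_eq]
      simp [Fin.sum_univ_two]
    have e2 : ‖x‖ = √(x 0 ^ 2 + x 1 ^ 2) := by
      rw [← e1, Real.sqrt_sq (norm_nonneg _)]
    simp only [e1]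
    rw [e2]
  have h4 : ∫ y : Fin 2 → ℝ, F (max 0 (y 0 / √(y 0 ^ 2 + y 1 ^ 2))) *
        Real.exp (-(y 0 ^ 2 + y 1 ^ 2)) =
      ∫ p : ℝ × ℝ, F (max 0 (p.1 / √(p.1 ^ 2 + p.2 ^ 2))) *
        Real.exp (-(p.1 ^ 2 + p.2 ^ 2)) := by
    have := (volume_preserving_finTwoArrow ℝ).integral_comp
      (MeasurableEquiv.finTwoArrow).measurableEmbedding
      (fun p : ℝ × ℝ => F (max 0 (p.1 / √(p.1 ^ 2 + p.2 ^ 2))) *
        Real.exp (-(p.1 ^ 2 + p.2 ^ 2)))
    rw [← this]
    rfl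
  rw [h2, h3, h4, ci_plane] at h1
  linarith

/-- Zonal integrals on the circle. -/
theorem circle {F : ℝ → ℝ} (hF : Continuous F) {e : E 2} (he : ‖e‖ = 1) :
    ∫ u : sphere (0 : E 2) 1, F (max 0 (inner ℝ e (u : E 2)))
      ∂((volume : Measure (E 2)).toSphere) =
      (∫ t in (-(Real.pi / 2))..(Real.pi / 2), F (Real.cos t)) + Real.pi * F 0 := by
  have hpi := Real.pi_pos
  rw [ci_circle F he, ← integral_Ioc_eq_integral_Ioo,
    ← intervalIntegral.integral_of_le (by linarith)]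
  have hc : Continuous fun t : ℝ => F (max 0 (Real.cos t)) := by fun_prop
  have hi : ∀ a b : ℝ, IntervalIntegrable (fun t : ℝ => F (max 0 (Real.cos t))) volume a b :=
    fun a b => hc.intervalIntegrable a b
  rw [← intervalIntegral.integral_add_adjacent_intervals (hi _ (-(Real.pi / 2))) (hi _ _),
    ← intervalIntegral.integral_add_adjacent_intervals (hi (-(Real.pi / 2)) (Real.pi / 2))
      (hi _ _)]
  have a1 : ∫ t in (-Real.pi)..(-(Real.pi / 2)), F (max 0 (Real.cos t)) = Real.pi / 2 * F 0 := by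
    rw [intervalIntegral.integral_congr (g := fun _ => F 0)]
    · rw [intervalIntegral.integral_const, smul_eq_mul]
      ring
    · intro t ht
      rw [uIcc_of_le (by linarith)] at ht
      simp only
      have : Real.cos t ≤ 0 := by
        rw [← Real.cos_neg]
        exact Real.cos_nonpos_of_pi_div_two_le_of_le (by linarith [ht.2]) (by linarith [ht.1])
      rw [max_eq_left this]
  have a3 : ∫ t in (Real.pi / 2)..Real.pi, F (max 0 (Real.cos t)) = Real.pi / 2 * F 0 := by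
    rw [intervalIntegral.integral_congr (g := fun _ => F 0)]
    · rw [intervalIntegral.integral_const, smul_eq_mul]
      ring
    · intro t ht
      rw [uIcc_of_le (by linarith)] at ht
      simp only
      have : Real.cos t ≤ 0 :=
        Real.cos_nonpos_of_pi_div_two_le_of_le ht.1 (by linarith [ht.2])
      rw [max_eq_left this]
  have a2 : ∫ t in (-(Real.pi / 2))..(Real.pi / 2), F (max 0 (Real.cos t)) =
      ∫ t in (-(Real.pi / 2))..(Real.pi / 2), F (Real.cos t) := by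
    apply intervalIntegral.integral_congr
    intro t ht
    rw [uIcc_of_le (by linarith)] at ht
    simp only
    rw [max_eq_right (Real.cos_nonneg_of_mem_Icc ht)]
  rw [a1, a2, a3]
  ring

end Vale.Agent.P219.N2
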