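import Vale.Agent.P219.N2.Upper

/-! # `n = 2`: the pair inequality in real form -/

open MeasureTheory Set Metric
open scoped ENNReal ContDiff

namespace Vale.Agent.P219.N2

open Vale.Agent.P219.TP Vale.Agent.P219.TPH

variable {G : Geo 2} {k : ℝ}

/-- The pair inequality. -/
theorem pair_ineq (hk : 0 ≤ k) (hG : MonoSn G k) {ct C : ℝ} {f : ℝ → ℝ} (hct : k ≤ ct)
    (hS1 : ∀ s ∈ Icc (0 : ℝ) 1, ∫⁻ r in Ioi (0 : ℝ),
      ENNReal.ofReal (s * (1 + cs k r) - ct * sn k r) ≤ ENNReal.ofReal (2 * (s * f s)))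
    (hf : Continuous f) (hf0 : ∀ s ∈ Icc (0 : ℝ) 1, 0 ≤ f s)
    (hC : ∀ e : E 2, ‖e‖ = 1 → ∫ u : sphere (0 : E 2) 1,
      max 0 (inner ℝ e (u : E 2)) * f (max 0 (inner ℝ e (u : E 2)))
        ∂((volume : Measure (E 2)).toSphere) ≤ C)
    {h : E 2 → ℝ} (hh : ContDiff ℝ 1 h) (hc : HasCompactSupport h) (h0 : ∀ x, 0 ≤ h x) :
    ∫⁻ x, (ENNReal.ofReal (2 * h x) * (volume : Measure (E 2)).toSphere univ +
        ENNReal.ofReal (k ^ 2) * ∫⁻ y, ENNReal.ofReal (min (h x) (h y)) ∂G.vol) ∂G.vol ≤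
      ∫⁻ x, ENNReal.ofReal ‖G.D h x‖ *
        (ENNReal.ofReal ct * G.vol {y | h x < h y} + ENNReal.ofReal (2 * C)) ∂G.vol := by
  refine (lintegral_mono fun x => pair_lower hk hG hh hc h0 x).trans ?_
  rw [Fp_eq_Fq hh]
  exact lintegral_mono fun x => pair_upper hk hG hct hS1 hf hf0 hC hh x

theorem N2_fin1 {h : E 2 → ℝ} (hc : HasCompactSupport h) : G.vol {x | h x = 1} ≠ ⊤ := by
  have hfin : G.vol (tsupport h) < ⊤ := G.vol_compact_lt_top hc.isCompact
  refine ((measure_mono fun x hx => ?_).trans_lt hfin).ne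
  have : h x = 1 := hx
  refine subset_tsupport h ?_
  rw [Function.mem_support, this]
  exact one_ne_zero

theorem pair_left {h : E 2 → ℝ} (hh : ContDiff ℝ 1 h) (hc : HasCompactSupport h) :
    ENNReal.ofReal (G.vol.real {x | h x = 1} *
        (2 * sig 2 + k ^ 2 * G.vol.real {x | h x = 1})) ≤
      ∫⁻ x, (ENNReal.ofReal (2 * h x) * (volume : Measure (E 2)).toSphere univ +
        ENNReal.ofReal (k ^ 2) * ∫⁻ y, ENNReal.ofReal (min (h x) (h y)) ∂G.vol) ∂G.vol := by
  have hm1 : MeasurableSet {x | h x = 1} :=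
    (isClosed_eq hh.continuous continuous_const).measurableSet
  have hf1 : G.vol {x | h x = 1} ≠ ⊤ := N2_fin1 hc
  have hsph : (volume : Measure (E 2)).toSphere univ ≠ ⊤ := measure_ne_top _ _
  have hl : G.vol {x | h x = 1} * (ENNReal.ofReal 2 * (volume : Measure (E 2)).toSphere univ +
      ENNReal.ofReal (k ^ 2) * G.vol {x | h x = 1}) ≤
      ∫⁻ x, (ENNReal.ofReal (2 * h x) * (volume : Measure (E 2)).toSphere univ +
        ENNReal.ofReal (k ^ 2) * ∫⁻ y, ENNReal.ofReal (min (h x) (h y)) ∂G.vol) ∂G.vol := by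
    refine le_trans ?_ (setLIntegral_le_lintegral {x | h x = 1} _)
    rw [mul_comm, ← setLIntegral_const]
    refine setLIntegral_mono' hm1 fun x hx => ?_
    have hx1 : h x = 1 := hx
    rw [hx1, mul_one]
    gcongr
    refine le_trans ?_ (setLIntegral_le_lintegral {x | h x = 1} _)
    have : G.vol {x | h x = 1} = ∫⁻ _x in {x | h x = 1}, 1 ∂G.vol := by
      rw [setLIntegral_const, one_mul]
    rw [this]
    refine setLIntegral_mono' hm1 fun y hy => ?_
    have hy1 : h y = 1 := hy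
    rw [hy1, min_self, ENNReal.ofReal_one]
  refine le_trans (le_of_eq ?_) hl
  unfold sig
  rw [ENNReal.ofReal_mul measureReal_nonneg, ENNReal.ofReal_add
    (mul_nonneg zero_le_two measureReal_nonneg) (mul_nonneg (sq_nonneg k) measureReal_nonneg),
    ENNReal.ofReal_mul zero_le_two, ENNReal.ofReal_mul (sq_nonneg k), ofReal_measureReal hf1,
    ofReal_measureReal hsph]

/-- The pair inequality before the use of the pointwise inequality. -/
theorem pair_pre (hk : 0 ≤ k) (hG : MonoSn G k)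
    {h : E 2 → ℝ} (hh : ContDiff ℝ 1 h) (hc : HasCompactSupport h) (h0 : ∀ x, 0 ≤ h x) :
    ENNReal.ofReal (G.vol.real {x | h x = 1} *
        (2 * sig 2 + k ^ 2 * G.vol.real {x | h x = 1})) ≤
      ∫⁻ y, ∫⁻ u : sphere (0 : E 2) 1, ∫⁻ r in Ioi (0 : ℝ),
        ENNReal.ofReal (if h y < h (G.ex y (r • (u : E 2))) then
          max 0 (inner ℝ (G.D h y) (u : E 2)) *
            (k * jJ G y u r + 1 + Real.exp (-(k * r))) else 0)
        ∂volume ∂((volume : Measure (E 2)).toSphere) ∂G.vol := by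
  refine (pair_left hh hc).trans ((lintegral_mono fun x => pair_lower hk hG hh hc h0 x).trans ?_)
  rw [Fp_eq_Fq hh]
  refine le_of_eq (lintegral_congr fun y => ?_)
  have hm : Measurable fun v : E 2 => Fq G k h (y, v) :=
    (measurable_Fq hh).comp (measurable_const.prodMk measurable_id)
  rw [polar (n := 2) (by norm_num) hm]
  exact lintegral_congr fun u =>
    setLIntegral_congr_fun measurableSet_Ioi fun r hr => Fq_ray y (by simp) hr

theorem pair_real (hk : 0 ≤ k) (hG : MonoSn G k) {ct C : ℝ} {f : ℝ → ℝ} (hct : k ≤ ct)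
    (hS1 : ∀ s ∈ Icc (0 : ℝ) 1, ∫⁻ r in Ioi (0 : ℝ),
      ENNReal.ofReal (s * (1 + cs k r) - ct * sn k r) ≤ ENNReal.ofReal (2 * (s * f s)))
    (hf : Continuous f) (hf0 : ∀ s ∈ Icc (0 : ℝ) 1, 0 ≤ f s) (hC0 : 0 ≤ C)
    (hC : ∀ e : E 2, ‖e‖ = 1 → ∫ u : sphere (0 : E 2) 1,
      max 0 (inner ℝ e (u : E 2)) * f (max 0 (inner ℝ e (u : E 2)))
        ∂((volume : Measure (E 2)).toSphere) ≤ C)
    {h : E 2 → ℝ} (hh : ContDiff ℝ 1 h) (hc : HasCompactSupport h) (h0 : ∀ x, 0 ≤ h x) :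
    G.vol.real {x | h x = 1} * (2 * sig 2 + k ^ 2 * G.vol.real {x | h x = 1}) ≤
      G.per h * (ct * G.vol.real {x | 0 < h x} + 2 * C) := by
  have hct0 : 0 ≤ ct := hk.trans hct
  have hfin : G.vol (tsupport h) < ⊤ := G.vol_compact_lt_top hc.isCompact
  have hf2 : G.vol {x | 0 < h x} ≠ ⊤ := by
    refine ((measure_mono fun x hx => ?_).trans_lt hfin).ne
    have hx' : 0 < h x := hx
    exact subset_tsupport h hx'.ne'
  have key := pair_ineq hk hG hct hS1 hf hf0 hC hh hc h0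
  have hr : ∫⁻ x, ENNReal.ofReal ‖G.D h x‖ *
        (ENNReal.ofReal ct * G.vol {y | h x < h y} + ENNReal.ofReal (2 * C)) ∂G.vol ≤
      ENNReal.ofReal (G.per h) *
        (ENNReal.ofReal ct * G.vol {x | 0 < h x} + ENNReal.ofReal (2 * C)) := by
    have h1 : ∀ x, ENNReal.ofReal ‖G.D h x‖ *
        (ENNReal.ofReal ct * G.vol {y | h x < h y} + ENNReal.ofReal (2 * C)) ≤
        ENNReal.ofReal ‖G.D h x‖ *
        (ENNReal.ofReal ct * G.vol {x | 0 < h x} + ENNReal.ofReal (2 * C)) := by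
      intro x
      gcongr with y
      exact h0 x
    refine (lintegral_mono h1).trans ?_
    rw [lintegral_mul_const' _ _ (by finiteness)]
    unfold Geo.per
    rw [ofReal_integral_eq_lintegral_ofReal (integrable_D G hh hc)
      (Filter.Eventually.of_forall fun x => norm_nonneg _)]
  have hfinal := (pair_left hh hc).trans (key.trans hr)
  have hper : 0 ≤ G.per h := integral_nonneg fun _ => norm_nonneg _
  have e2 : ENNReal.ofReal (G.per h) *
        (ENNReal.ofReal ct * G.vol {x | 0 < h x} + ENNReal.ofReal (2 * C)) =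
      ENNReal.ofReal (G.per h * (ct * G.vol.real {x | 0 < h x} + 2 * C)) := by
    rw [ENNReal.ofReal_mul hper, ENNReal.ofReal_add (mul_nonneg hct0 measureReal_nonneg)
      (by positivity), ENNReal.ofReal_mul hct0, ofReal_measureReal hf2]
  rw [e2] at hfinal
  refine (ENNReal.ofReal_le_ofReal_iff ?_).1 hfinal
  exact mul_nonneg hper (add_nonneg (mul_nonneg hct0 measureReal_nonneg) (by positivity))

end Vale.Agent.P219.N2
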