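import Vale.Agent.P219.N2.Comb
import Vale.Agent.P219.TPH.SliceH
import Vale.Agent.P219.TPH.FinalH

/-! # `n = 2`: the functional isoperimetric inequality from the scalar data -/

open MeasureTheory Set Metric
open scoped ENNReal ContDiff

namespace Vale.Agent.P219.N2

open Vale.Agent.P219.TP Vale.Agent.P219.TPH

variable {k : ℝ}

/-- The scalar data for the model ball of radius `R`. -/
structure Scal (k R : ℝ) where
  C : ℝ
  f : ℝ → ℝ
  C_nonneg : 0 ≤ C
  f_cont : Continuous f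
  f_nonneg : ∀ s ∈ Icc (0 : ℝ) 1, 0 ≤ f s
  s1 : ∀ s ∈ Icc (0 : ℝ) 1, ∫⁻ r in Ioi (0 : ℝ),
    ENNReal.ofReal (s * (1 + cs k r) - cs k R / sn k R * sn k r) ≤
      ENNReal.ofReal (2 * (s * f s))
  hC : ∀ e : E 2, ‖e‖ = 1 → ∫ u : sphere (0 : E 2) 1,
    max 0 (inner ℝ e (u : E 2)) * f (max 0 (inner ℝ e (u : E 2)))
      ∂((volume : Measure (E 2)).toSphere) ≤ C
  bal : cs k R / sn k R * VR 2 k R + 2 * C ≤ AR 2 k R

theorem cs_sub_one (k R : ℝ) : cs k R - 1 = k ^ 2 * ∫ r in (0 : ℝ)..R, sn k r ^ (2 - 1) := by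
  have h : ∫ r in (0 : ℝ)..R, k ^ 2 * sn k r = cs k R - cs k 0 :=
    intervalIntegral.integral_eq_sub_of_hasDerivAt (fun r _ => hasDerivAt_cs k r)
      ((continuous_const.mul (contDiff_sn k).continuous).intervalIntegrable _ _)
  rw [cs_zero, intervalIntegral.integral_const_mul] at h
  simp only [Nat.add_one_sub_one, pow_one]
  exact h.symm

theorem sn_sq (k R : ℝ) : sn k R ^ 2 = 2 * (∫ r in (0 : ℝ)..R, sn k r ^ (2 - 1)) +
    k ^ 2 * (∫ r in (0 : ℝ)..R, sn k r ^ (2 - 1)) ^ 2 := by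
  rcases eq_or_ne k 0 with hk | hk
  · subst hk
    simp only [h1_sn_z, Nat.add_one_sub_one, pow_one]
    rw [integral_id]
    ring
  · have h1 := cs_sub_one k R
    have h2 := cs_sq k R
    set c := ∫ r in (0 : ℝ)..R, sn k r ^ (2 - 1) with hc
    have h3 : cs k R = 1 + k ^ 2 * c := by linarith
    rw [h3] at h2
    have h4 : k ^ 2 * (sn k R ^ 2) = k ^ 2 * (2 * c + k ^ 2 * c ^ 2) := by linarith
    exact mul_left_cancel₀ (pow_ne_zero 2 hk) h4

/-- The model ball. -/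
theorem AR_sq_sig (k R : ℝ) : AR 2 k R ^ 2 = VR 2 k R * (2 * sig 2 + k ^ 2 * VR 2 k R) := by
  unfold AR VR
  have h := sn_sq k R
  have : (sig 2 * sn k R ^ (2 - 1)) ^ 2 = sig 2 ^ 2 * sn k R ^ 2 := by
    simp only [Nat.add_one_sub_one, pow_one]
    ring
  rw [this, h]
  ring

theorem ct_ge (hk : 0 ≤ k) {R : ℝ} (hR : 0 < R) : k ≤ cs k R / sn k R := by
  rw [le_div_iff₀ (sn_pos hk hR)]
  have := cs_sub_sn k R
  have h2 := Real.exp_pos (-(k * R))
  linarith

theorem ct_AR (hk : 0 ≤ k) {R : ℝ} (hR : 0 < R) :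
    cs k R / sn k R * AR 2 k R ≤ sig 2 + k * AR 2 k R := by
  have hs := sn_pos hk hR
  have h0 : 0 < sig 2 := sig_pos (by norm_num)
  have h1 : cs k R / sn k R * AR 2 k R = sig 2 * cs k R := by
    unfold AR
    simp only [Nat.add_one_sub_one, pow_one]
    field_simp
  have h2 := cs_sub_sn k R
  have h3 : Real.exp (-(k * R)) ≤ 1 := Real.exp_le_one_iff.2 (by nlinarith)
  have h4 : cs k R ≤ 1 + k * sn k R := by linarith
  have h5 := mul_le_mul_of_nonneg_left h4 h0.le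
  rw [h1]
  unfold AR
  simp only [Nat.add_one_sub_one, pow_one]
  linarith

theorem vol_pos_le {G : Geo 2} {h : E 2 → ℝ} (hc : HasCompactSupport h)
    (h01 : ∀ x, 0 ≤ h x ∧ h x ≤ 1) :
    G.vol.real {x | 0 < h x} ≤ V1 G h + G.vol.real {x | 0 < h x ∧ h x < 1} := by
  have hsub : {x | 0 < h x} ⊆ {x | h x = 1} ∪ {x | 0 < h x ∧ h x < 1} := by
    intro x hx
    have hx' : 0 < h x := hx
    rcases (h01 x).2.eq_or_lt with h1 | h1
    · exact Or.inl h1
    · exact Or.inr ⟨hx', h1⟩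
  have hfin : G.vol (tsupport h) < ⊤ := G.vol_compact_lt_top hc.isCompact
  have hf2 : G.vol {x | 0 < h x ∧ h x < 1} ≠ ⊤ := by
    refine ((measure_mono fun x hx => ?_).trans_lt hfin).ne
    exact subset_tsupport h (Function.mem_support.2 hx.1.ne')
  unfold V1
  refine (measureReal_mono hsub ?_).trans (measureReal_union_le _ _)
  rw [← lt_top_iff_ne_top]
  exact (measure_union_le _ _).trans_lt (ENNReal.add_lt_top.2
    ⟨lt_top_iff_ne_top.2 (N2_fin1 hc), lt_top_iff_ne_top.2 hf2⟩)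

/-- Arithmetic of the end. -/
theorem arith_end {A a σ k ε p X : ℝ} (ha : 0 < a) (hσ : 0 < σ) (hk : 0 ≤ k) (hε : 0 < ε)
    (h1 : ε ≤ a / 2) (h2 : k * ε ≤ a / 4) (h3 : 8 * (σ * ε) < a ^ 2) (hp : 0 ≤ p)
    (hpA : p < A - a + ε) (hX : A * X ≤ (σ + k * A) * ε) (h : A ^ 2 ≤ p * (A + X)) : False := by
  have hA : a / 2 < A := by linarith
  have hA0 : 0 < A := by linarith
  have e1 : A ^ 3 ≤ p * (A ^ 2 + A * X) := by nlinarith
  have e2 : p * (A ^ 2 + A * X) ≤ p * (A ^ 2 + (σ + k * A) * ε) :=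
    mul_le_mul_of_nonneg_left (by linarith) hp
  have e3 : 0 ≤ (σ + k * A) * ε := by positivity
  have e4 : p * (A ^ 2 + (σ + k * A) * ε) ≤ (A - a / 2) * (A ^ 2 + (σ + k * A) * ε) :=
    mul_le_mul_of_nonneg_right (by linarith) (by positivity)
  have e5 : (A - a / 2) * (A ^ 2 + (σ + k * A) * ε) ≤
      (A - a / 2) * A ^ 2 + A * ((σ + k * A) * ε) := by nlinarith
  have e6 : a / 2 * A ^ 2 ≤ A * ((σ + k * A) * ε) := by
    have : A ^ 3 = A * A ^ 2 := by ring
    nlinarith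
  have e7 : a / 2 * A ≤ (σ + k * A) * ε := by
    have : A * (a / 2 * A) ≤ A * ((σ + k * A) * ε) := by nlinarith
    exact le_of_mul_le_mul_left this hA0
  have e8 : k * A * ε ≤ a / 4 * A := by nlinarith
  have e9 : a / 4 * A ≤ σ * ε := by nlinarith
  nlinarith

/-- **The functional isoperimetric inequality in dimension two**, from the scalar data. -/
theorem funcIso_two_of (hk : 0 ≤ k) (D : ∀ R : ℝ, 0 < R → Nonempty (Scal k R)) :
    FuncIso 2 k := by
  intro G hG h hh hc h01 R hR hV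
  obtain ⟨I, hImono, -, hI0, hIz, hIR, -⟩ := exists_profile (n := 2) (k := k) le_rfl hk
  obtain ⟨L, hL⟩ := exists_lg_bound G hc 0
  have hcls : G.Cls 0 (max L 1) h := by
    refine ⟨hh, fun x => (h01 x).1, fun x => (h01 x).2, fun x hx => ?_⟩
    exact (hL x (subset_tsupport h hx)).trans (le_max_left _ _)
  have hρ : 0 < max L 1 := by positivity
  set ρ := max L 1 with hρdef
  have h1 : 0 ≤ G.per h - I (V1 G h) := by
    by_contra hneg
    rw [not_le] at hneg
    have hsig : 0 < sig 2 := sig_pos (by norm_num)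
    obtain ⟨Cb, hCb⟩ := deficit_bddBelow G hImono 0 ρ
    set S : Set ℝ := {y | ∃ h, G.Cls 0 ρ h ∧ G.per h - I (V1 G h) = y} with hS
    have hSb : BddBelow S := ⟨-Cb, by rintro y ⟨g, hg, rfl⟩; exact hCb g hg⟩
    have hSn : S.Nonempty := ⟨_, h, hcls, rfl⟩
    obtain ⟨J, hJdef⟩ : ∃ J, J = sInf S := ⟨_, rfl⟩
    have hJ : ∀ g, G.Cls 0 ρ g → J ≤ G.per g - I (V1 G g) :=
      fun g hg => hJdef ▸ csInf_le hSb ⟨g, hg, rfl⟩
    have hJ' : ∀ ε > 0, ∃ g, G.Cls 0 ρ g ∧ G.per g - I (V1 G g) < J + ε := by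
      intro ε hε
      obtain ⟨y, ⟨g, hg, rfl⟩, hlt⟩ := exists_lt_of_csInf_lt hSn (lt_add_of_pos_right (sInf S) hε)
      exact ⟨g, hg, hJdef ▸ hlt⟩
    have hJ0 : J < 0 := (hJ h hcls).trans_lt hneg
    have ha : 0 < -J := by linarith
    obtain ⟨ε, hε, hε1, hε2, hε3⟩ : ∃ ε : ℝ, 0 < ε ∧ ε ≤ -J / 2 ∧ k * ε ≤ -J / 4 ∧
        8 * (sig 2 * ε) < (-J) ^ 2 := by
      refine ⟨min (-J / 2) (min (-J / (4 * (k + 1))) ((-J) ^ 2 / (16 * sig 2))), by positivity,
        min_le_left _ _, ?_, ?_⟩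
      · have e1 := (min_le_right (-J / 2) (min (-J / (4 * (k + 1)))
          ((-J) ^ 2 / (16 * sig 2)))).trans (min_le_left _ _)
        have e2 := mul_le_mul_of_nonneg_left e1 hk
        refine e2.trans ?_
        rw [mul_div_assoc', div_le_div_iff₀ (by positivity) (by norm_num)]
        nlinarith
      · have e1 := (min_le_right (-J / 2) (min (-J / (4 * (k + 1)))
          ((-J) ^ 2 / (16 * sig 2)))).trans (min_le_right _ _)
        have e2 := mul_le_mul_of_nonneg_left e1 hsig.le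
        have e3 : sig 2 * ((-J) ^ 2 / (16 * sig 2)) = (-J) ^ 2 / 16 := by
          field_simp
        have e4 : 0 < (-J) ^ 2 := by positivity
        linarith
    obtain ⟨g, hg, hgJ, hglay⟩ := exists_thin_H G hI0 hImono 0 ρ hJ hJ' ε hε
    have hgc : HasCompactSupport g := wh_compactSupport G hg
    have hVg0 : 0 ≤ V1 G g := measureReal_nonneg
    have hper : 0 ≤ G.per g := integral_nonneg fun _ => norm_nonneg _
    obtain ⟨Rs, hRs0, hRs⟩ := exists_VR (n := 2) (k := k) (by norm_num) hk hVg0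
    have hIA : I (V1 G g) = AR 2 k Rs := by rw [← hIR Rs hRs0, hRs]
    have hRsp : 0 < Rs := by
      rcases hRs0.eq_or_lt with h0 | h0
      · exfalso
        rw [← h0, VR_zero] at hRs
        rw [← hRs, hIz] at hgJ
        linarith
      · exact h0
    obtain ⟨T⟩ := D Rs hRsp
    have hct := ct_ge hk hRsp
    have key := pair_real hk hG hct T.s1 T.f_cont T.f_nonneg T.C_nonneg T.hC hg.smooth hgc
      hg.nonneg
    have hV1 : G.vol.real {x | g x = 1} = VR 2 k Rs := hRs.symm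
    rw [hV1, ← AR_sq_sig] at key
    have hV0 := vol_pos_le (G := G) hgc fun x => ⟨hg.nonneg x, hg.le_one x⟩
    have hct0 : 0 ≤ cs k Rs / sn k Rs := hk.trans hct
    have h5 : cs k Rs / sn k Rs * G.vol.real {x | 0 < g x} + 2 * T.C ≤
        AR 2 k Rs + cs k Rs / sn k Rs * ε := by
      have h6 : G.vol.real {x | 0 < g x} ≤ VR 2 k Rs + ε := by
        rw [← hRs] at hV0
        linarith
      have h7 := mul_le_mul_of_nonneg_left h6 hct0
      have h8 := T.bal
      linarith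
    refine arith_end (A := AR 2 k Rs) (a := -J) (σ := sig 2) (k := k) (ε := ε) (p := G.per g)
      (X := cs k Rs / sn k Rs * ε) ha hsig hk hε hε1 hε2 hε3 hper ?_ ?_
      (key.trans (mul_le_mul_of_nonneg_left h5 hper))
    · rw [hIA] at hgJ
      linarith
    · have := mul_le_mul_of_nonneg_right (ct_AR hk hRsp) hε.le
      linarith
  have hVR0 : 0 ≤ VR 2 k R := by
    have h2 := (VR_strictMonoOn (n := 2) (k := k) (by norm_num) hk).monotoneOn
      (mem_Ici.2 le_rfl) (mem_Ici.2 hR) hR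
    rwa [VR_zero] at h2
  have h3 : I (VR 2 k R) ≤ I (V1 G h) := hImono hVR0 (mem_Ici.2 measureReal_nonneg) hV
  rw [hIR R hR] at h3
  linarith

end Vale.Agent.P219.N2
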