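import Vale.Agent.P219.N2.Main
import Vale.Agent.P219.N2.RigDom

/-! # The generalized Cartan-Hadamard conjecture in dimension two -/

open MeasureTheory Set Metric
open scoped ENNReal ContDiff

namespace Vale.Agent.P219.Co

/-- Dimension two: the inequality and the equality case, all `K ≤ 0`. -/
theorem cartanHadamard_two {K : ℝ} (hK : K ≤ 0)
    (M : RiemMetric 2) (hM : GeodesicallyComplete M) (hs : SecLE M K) :
    IsoperimetricIneq M K ∧
      ∀ (D : SmoothDomain 2) (r : ℝ), 0 ≤ r →
        riemVol M D.carrier = ENNReal.ofReal (modelVol 2 K r) →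
        riemArea M D = ENNReal.ofReal (modelArea 2 K r) → IsometricToBallK M K D r :=
  ⟨isop_of_func le_rfl (fun _ hk => SA.funcIso_two hk) M hM hK hs, fun D r hr hV hA =>
    equality_two M hM hK hs D r hr hV hA⟩

end Vale.Agent.P219.Co
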