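import Vale.Agent.P219.N2.Ray
import Vale.Agent.P219.TPH.CurvH
import Vale.Agent.P219.TPH.DetExp

/-! # `n = 2`: the Jacobian along rays, from `MonoSn` -/

open MeasureTheory Set Metric
open scoped ENNReal ContDiff

namespace Vale.Agent.P219.N2

open Vale.Agent.P219.TP Vale.Agent.P219.TPH

variable {n : ℕ} {G : Geo n} {k : ℝ}

/-- PROOF: `mono_sn` and `s → 0` (`T x 0 z = z`, `T_smooth`, `sn k (s r)/s → r`). -/
theorem norm_T_snM (hk : 0 ≤ k) (hG : MonoSn G k) {x v z : E n} (hv : v ≠ 0)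
    (hz : inner ℝ v z = 0) : sn k ‖v‖ * ‖z‖ ≤ ‖v‖ * ‖G.T x v z‖ := by
  have _ := hk
  have _ := hv
  have h1 : Filter.Tendsto (fun s : ℝ => sn k ‖v‖ * ‖G.T x (s • v) z‖) (nhdsWithin 0 (Ioi 0))
      (nhds (sn k ‖v‖ * ‖z‖)) := by
    have hc : Continuous fun s : ℝ => sn k ‖v‖ * ‖G.T x (s • v) z‖ := by
      have hT : Continuous fun s : ℝ => G.T x (s • v) :=
        G.T_smooth.continuous.comp (continuous_const.prodMk (continuous_id.smul continuous_const))
      exact continuous_const.mul (hT.clm_apply continuous_const).norm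
    have h2 := hc.tendsto 0
    simp only [zero_smul, G.T_zero] at h2
    exact h2.mono_left nhdsWithin_le_nhds
  have h2 : Filter.Tendsto (fun s : ℝ => (sn k (s * ‖v‖) / s) * ‖G.T x v z‖)
      (nhdsWithin 0 (Ioi 0)) (nhds (‖v‖ * ‖G.T x v z‖)) := by
    refine Filter.Tendsto.mul_const _ ?_
    have h30 : HasDerivAt (fun s : ℝ => s * ‖v‖) (1 * ‖v‖) 0 := (hasDerivAt_id' 0).mul_const ‖v‖
    have h3 : HasDerivAt (fun s : ℝ => sn k (s * ‖v‖)) (cs k (0 * ‖v‖) * (1 * ‖v‖)) 0 :=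
      HasDerivAt.comp (h₂ := sn k) (h := fun s : ℝ => s * ‖v‖) 0 (hasDerivAt_sn k (0 * ‖v‖)) h30
    rw [zero_mul, cs_zero, one_mul, one_mul, hasDerivAt_iff_tendsto_slope] at h3
    have h4 := h3.mono_left (nhdsWithin_mono (0 : ℝ) (fun s (hs : s ∈ Ioi (0 : ℝ)) =>
      (ne_of_gt hs : s ∈ ({0}ᶜ : Set ℝ))))
    refine h4.congr' ?_
    filter_upwards [self_mem_nhdsWithin] with s _
    rw [slope_def_field, zero_mul, sn_zero, sub_zero, sub_zero]
  refine le_of_tendsto_of_tendsto h1 h2 ?_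
  have h5 : Ioc (0 : ℝ) 1 ∈ nhdsWithin (0 : ℝ) (Ioi 0) := Ioc_mem_nhdsGT zero_lt_one
  filter_upwards [h5] with s hs
  have h6 := hG x v z s hz hs.1 hs.2
  rw [div_mul_eq_mul_div, le_div_iff₀ hs.1]
  linarith

/-- Monotonicity of the Jacobian, Bishop type. PROOF: `S = T x (s v)`, `T = T x v`; the linear map
`Q` with `Q (T v) = S v` and `Q (T z) = (s sn r / sn (s r)) S z` for `z ⟂ v` does not increase norms
(Gauss lemma: `T z ⟂ T v`, `S z ⟂ S v`), so `|det Q| ≤ 1`, and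
`det Q = (s sn r / sn (s r))^(n-1) det S / det T`. -/
theorem jac_ratioM (hn : 1 ≤ n) (hk : 0 ≤ k) (hG : MonoSn G k) {x v : E n} (hv : v ≠ 0) {s : ℝ}
    (h0 : 0 < s) (h1 : s ≤ 1) :
    |(G.T x (s • v)).det| * (s * sn k ‖v‖) ^ (n - 1) ≤
      |(G.T x v).det| * sn k (s * ‖v‖) ^ (n - 1) := by
  have hv0 : 0 < ‖v‖ := norm_pos_iff.2 hv
  have hsn : 0 < sn k ‖v‖ := sn_pos hk hv0
  have hsns : 0 < sn k (s * ‖v‖) := sn_pos hk (mul_pos h0 hv0)
  set β : ℝ := s * sn k ‖v‖ / sn k (s * ‖v‖) with hβ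
  have hβ0 : 0 < β := div_pos (mul_pos h0 hsn) hsns
  have he : ‖‖v‖⁻¹ • v‖ = 1 := by
    rw [norm_smul, norm_inv, norm_norm, inv_mul_cancel₀ hv0.ne']
  have h2 := curvh_det_le hn (B := (G.T x (s • v)).comp (curvhL (‖v‖⁻¹ • v) β)) (C := G.T x v)
    (G.det_T_ne x v) (by
      intro ξ
      obtain ⟨c, z, hz, hξ, hL⟩ := curvh_decomp hv β hβ0 ξ
      rw [ContinuousLinearMap.comp_apply, hL, hξ, map_add, map_add, map_smul, map_smul, map_smul]
      have h3 : ‖c • G.T x (s • v) v + β • G.T x (s • v) z‖ ^ 2 =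
          c ^ 2 * ‖v‖ ^ 2 + ‖β • G.T x (s • v) z‖ ^ 2 :=
        curvh_norm_add c (curvh_norm_T_smul x v h0) (by
          rw [real_inner_smul_right, curvh_inner_T_smul x hz h0, mul_zero])
      have h4 : ‖c • G.T x v v + G.T x v z‖ ^ 2 = c ^ 2 * ‖v‖ ^ 2 + ‖G.T x v z‖ ^ 2 := by
        have e1 := curvh_norm_T_smul (G := G) x v one_pos
        have e2 := curvh_inner_T_smul (G := G) x hz one_pos
        rw [one_smul] at e1 e2
        exact curvh_norm_add c e1 e2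
      have h5 : ‖β • G.T x (s • v) z‖ ≤ ‖G.T x v z‖ := by
        rw [norm_smul, Real.norm_eq_abs, abs_of_pos hβ0, hβ, div_mul_eq_mul_div, div_le_iff₀ hsns]
        have := hG x v z s hz h0 h1
        linarith
      have h6 := pow_le_pow_left₀ (norm_nonneg _) h5 2
      exact le_of_sq_le_sq (by rw [h3, h4]; linarith) (norm_nonneg _))
  have h3 : ((G.T x (s • v)).comp (curvhL (‖v‖⁻¹ • v) β)).det =
      (G.T x (s • v)).det * β ^ (n - 1) := by
    rw [← curvhL_det hn he hβ0]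
    unfold ContinuousLinearMap.det
    rw [ContinuousLinearMap.toLinearMap_comp, LinearMap.det_comp]
  rw [h3, abs_mul, abs_of_pos (pow_pos hβ0 _), hβ, div_pow, mul_div_assoc',
    div_le_iff₀ (pow_pos hsns _)] at h2
  exact h2

theorem sn_le_JM (hn : 1 ≤ n) (hk : 0 ≤ k) (hG : MonoSn G k) {x v : E n} (hv : v ≠ 0) :
    sn k ‖v‖ ^ (n - 1) ≤ ‖v‖ ^ (n - 1) * |(G.T x v).det| := by
  have hv0 : 0 < ‖v‖ := norm_pos_iff.2 hv
  have hsn : 0 < sn k ‖v‖ := sn_pos hk hv0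
  set β : ℝ := sn k ‖v‖ / ‖v‖ with hβ
  have hβ0 : 0 < β := div_pos hsn hv0
  have he : ‖‖v‖⁻¹ • v‖ = 1 := by
    rw [norm_smul, norm_inv, norm_norm, inv_mul_cancel₀ hv0.ne']
  have h2 := curvh_det_le hn (B := curvhL (‖v‖⁻¹ • v) β) (C := G.T x v)
    (G.det_T_ne x v) (by
      intro ξ
      obtain ⟨c, z, hz, hξ, hL⟩ := curvh_decomp hv β hβ0 ξ
      rw [hL, hξ, map_add, map_smul]
      have h3 : ‖c • v + β • z‖ ^ 2 = c ^ 2 * ‖v‖ ^ 2 + ‖β • z‖ ^ 2 :=
        curvh_norm_add c rfl (by rw [real_inner_smul_right, hz, mul_zero])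
      have h4 : ‖c • G.T x v v + G.T x v z‖ ^ 2 = c ^ 2 * ‖v‖ ^ 2 + ‖G.T x v z‖ ^ 2 := by
        have e1 := curvh_norm_T_smul (G := G) x v one_pos
        have e2 := curvh_inner_T_smul (G := G) x hz one_pos
        rw [one_smul] at e1 e2
        exact curvh_norm_add c e1 e2
      have h5 : ‖β • z‖ ≤ ‖G.T x v z‖ := by
        rw [norm_smul, Real.norm_eq_abs, abs_of_pos hβ0, hβ, div_mul_eq_mul_div, div_le_iff₀ hv0]
        have := norm_T_snM (x := x) hk hG hv hz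
        linarith
      have h6 := pow_le_pow_left₀ (norm_nonneg _) h5 2
      exact le_of_sq_le_sq (by rw [h3, h4]; linarith) (norm_nonneg _))
  rw [curvhL_det hn he hβ0, abs_of_pos (pow_pos hβ0 _), hβ, div_pow,
    div_le_iff₀ (pow_pos hv0 _)] at h2
  linarith

/-- Monotonicity of the Jacobian along a ray. -/
theorem curvh_rayM (hn : 1 ≤ n) (hk : 0 ≤ k) (hG : MonoSn G k) (p : E n) {w : E n}
    (hw : ‖w‖ = 1) {a b : ℝ} (ha : 0 < a) (hab : a ≤ b) :
    |(G.T p (a • w)).det| * a ^ (n - 1) * sn k b ^ (n - 1) ≤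
      |(G.T p (b • w)).det| * b ^ (n - 1) * sn k a ^ (n - 1) := by
  have hb : 0 < b := ha.trans_le hab
  have hw0 : w ≠ 0 := by
    intro h
    rw [h, norm_zero] at hw
    exact zero_ne_one hw
  have h1 := jac_ratioM hn hk hG (x := p) (v := b • w) (smul_ne_zero hb.ne' hw0)
    (s := a / b) (div_pos ha hb) ((div_le_one hb).2 hab)
  rw [smul_smul, div_mul_cancel₀ _ hb.ne', norm_smul, hw, mul_one, Real.norm_eq_abs,
    abs_of_pos hb, div_mul_cancel₀ _ hb.ne'] at h1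
  have h2 := mul_le_mul_of_nonneg_right h1 (pow_nonneg hb.le (n - 1))
  calc |(G.T p (a • w)).det| * a ^ (n - 1) * sn k b ^ (n - 1)
      = |(G.T p (a • w)).det| * (a / b * sn k b) ^ (n - 1) * b ^ (n - 1) := by
        rw [mul_assoc, mul_assoc, ← mul_pow, ← mul_pow]
        congr 2
        field_simp
    _ ≤ _ := h2
    _ = _ := by ring


/-- The Jacobian in polar coordinates, dimension two. -/
noncomputable def jJ (G : Geo 2) (x u : E 2) (r : ℝ) : ℝ := r * (G.T x (r • u)).det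

theorem jJ_contDiff (G : Geo 2) (x u : E 2) : ContDiff ℝ 1 (jJ G x u) := by
  have h1 : ContDiff ℝ ∞ fun r : ℝ => (G.T x (r • u)).det :=
    (detExp_smooth G).comp (contDiff_const.prodMk (contDiff_id.smul contDiff_const))
  exact contDiff_id.mul (h1.of_le (by simp))

theorem jJ_zero (G : Geo 2) (x u : E 2) : jJ G x u 0 = 0 := by
  unfold jJ
  rw [zero_mul]

theorem jJ_ge {G : Geo 2} (hk : 0 ≤ k) (hG : MonoSn G k) (x : E 2) {u : E 2} (hu : ‖u‖ = 1)
    {r : ℝ} (hr : 0 < r) : sn k r ≤ jJ G x u r := by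
  have hn1 : ‖r • u‖ = r := by rw [norm_smul, hu, mul_one, Real.norm_eq_abs, abs_of_pos hr]
  have h := sn_le_JM (n := 2) (by norm_num) hk hG (x := x) (v := r • u)
    (norm_ne_zero_iff.1 (by rw [hn1]; exact hr.ne'))
  rw [hn1, abs_of_pos (det_T_pos G x _)] at h
  simpa [jJ] using h

theorem jJ_mono {G : Geo 2} (hk : 0 ≤ k) (hG : MonoSn G k) (x : E 2) {u : E 2} (hu : ‖u‖ = 1)
    {a b : ℝ} (ha : 0 < a) (hab : a ≤ b) : jJ G x u a * sn k b ≤ jJ G x u b * sn k a := by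
  have h := curvh_rayM (n := 2) (by norm_num) hk hG x hu ha hab
  rw [abs_of_pos (det_T_pos G x _), abs_of_pos (det_T_pos G x _)] at h
  simp only [Nat.add_one_sub_one, pow_one] at h
  unfold jJ
  linarith

theorem jJ_deriv {G : Geo 2} (hk : 0 ≤ k) (hG : MonoSn G k) (x : E 2) {u : E 2} (hu : ‖u‖ = 1)
    {r : ℝ} (hr : 0 < r) : jJ G x u r * cs k r ≤ deriv (jJ G x u) r * sn k r := by
  have hd : HasDerivAt (jJ G x u) (deriv (jJ G x u) r) r :=
    ((jJ_contDiff G x u).differentiable one_ne_zero r).hasDerivAt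
  have h1 : HasDerivAt (fun b => jJ G x u b * sn k r - jJ G x u r * sn k b)
      (deriv (jJ G x u) r * sn k r - jJ G x u r * cs k r) r :=
    (hd.mul_const _).sub ((hasDerivAt_sn k r).const_mul _)
  have h2 := h1.hasDerivWithinAt (s := Ioi r)
  rw [hasDerivWithinAt_iff_tendsto_slope' self_notMem_Ioi] at h2
  have h3 : 0 ≤ deriv (jJ G x u) r * sn k r - jJ G x u r * cs k r := by
    refine ge_of_tendsto h2 ?_
    filter_upwards [self_mem_nhdsWithin] with b hb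
    have hb' : r < b := hb
    rw [slope_def_field]
    have e := jJ_mono hk hG x hu hr hb'.le
    exact div_nonneg (by linarith) (by linarith)
  linarith

end Vale.Agent.P219.N2
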