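import Vale.Agent.P219.N2.Jac
import Vale.Agent.P219.TP.Sobolev

/-! # `n = 2`: the pair inequality -/

open MeasureTheory Set Metric
open scoped ENNReal ContDiff

namespace Vale.Agent.P219.N2

open Vale.Agent.P219.TP Vale.Agent.P219.TPH

variable {G : Geo 2} {k : ℝ}

/-! ### The flip -/

theorem flip_ex (G : Geo 2) (x v : E 2) : G.ex (G.ex x v) (-G.V 1 x v) = x := by
  rw [← G.lg_back, G.ex_lg]

theorem flip_V (G : Geo 2) (x v : E 2) : G.V 1 (G.ex x v) (-G.V 1 x v) = -v := by
  rw [← G.lg_back, G.lg_back', G.lg_ex]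

theorem flip_det (G : Geo 2) (x v : E 2) :
    (G.T (G.ex x v) (-G.V 1 x v)).det = (G.T x v).det := by
  have h := G.J_symm x (G.ex x v)
  rw [G.lg_ex, G.lg_back, abs_of_pos (det_T_pos G _ _), abs_of_pos (det_T_pos G _ _)] at h
  exact h.symm

/-- The pair integrand, with respect to `dv dvol(x)`. -/
noncomputable def Fp (G : Geo 2) (k : ℝ) (h : E 2 → ℝ) (z : E 2 × E 2) : ℝ≥0∞ :=
  ENNReal.ofReal (if h (G.ex z.1 z.2) < h z.1 then
    ‖z.2‖⁻¹ * (max 0 (-(inner ℝ (G.D h (G.ex z.1 z.2)) (‖z.2‖⁻¹ • G.V 1 z.1 z.2))) *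
      (k * (‖z.2‖ * (G.T z.1 z.2).det) + 1 + Real.exp (-(k * ‖z.2‖)))) else 0)

/-- The flipped integrand. -/
noncomputable def Fq (G : Geo 2) (k : ℝ) (h : E 2 → ℝ) (z : E 2 × E 2) : ℝ≥0∞ :=
  ENNReal.ofReal (if h z.1 < h (G.ex z.1 z.2) then
    ‖z.2‖⁻¹ * (max 0 (inner ℝ (G.D h z.1) (‖z.2‖⁻¹ • z.2)) *
      (k * (‖z.2‖ * (G.T z.1 z.2).det) + 1 + Real.exp (-(k * ‖z.2‖)))) else 0)

theorem Fp_flip (G : Geo 2) (k : ℝ) (h : E 2 → ℝ) (x v : E 2) :
    Fp G k h (G.ex x v, -G.V 1 x v) = Fq G k h (x, v) := by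
  unfold Fp Fq
  simp only [flip_ex, flip_V, flip_det, norm_neg, G.norm_V, smul_neg, inner_neg_right, neg_neg]

theorem measurable_Fp {h : E 2 → ℝ} (hh : ContDiff ℝ 1 h) : Measurable (Fp G k h) := by
  unfold Fp
  refine Measurable.ennreal_ofReal ?_
  have hex : Continuous fun z : E 2 × E 2 => G.ex z.1 z.2 := G.ex_smooth.continuous
  have hV : Continuous fun z : E 2 × E 2 => G.V 1 z.1 z.2 :=
    G.V_smooth.continuous.comp (continuous_const.prodMk (continuous_fst.prodMk continuous_snd))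
  have hD : Continuous (G.D h) := PairGe.continuous_D G hh
  have hT : Continuous fun z : E 2 × E 2 => (G.T z.1 z.2).det := (detExp_smooth G).continuous
  refine Measurable.ite ?_ ?_ measurable_const
  · exact (isOpen_lt (hh.continuous.comp hex) (hh.continuous.comp continuous_fst)).measurableSet
  · refine Measurable.mul measurable_snd.norm.inv (Measurable.mul ?_ ?_)
    · refine measurable_const.max (Measurable.neg ?_)
      exact (hD.comp hex).measurable.inner (measurable_snd.norm.inv.smul hV.measurable)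
    · exact (by fun_prop : Continuous fun z : E 2 × E 2 =>
        k * (‖z.2‖ * (G.T z.1 z.2).det) + 1 + Real.exp (-(k * ‖z.2‖))).measurable

theorem measurable_Fq {h : E 2 → ℝ} (hh : ContDiff ℝ 1 h) : Measurable (Fq G k h) := by
  unfold Fq
  refine Measurable.ennreal_ofReal ?_
  have hex : Continuous fun z : E 2 × E 2 => G.ex z.1 z.2 := G.ex_smooth.continuous
  have hD : Continuous (G.D h) := PairGe.continuous_D G hh
  have hT : Continuous fun z : E 2 × E 2 => (G.T z.1 z.2).det := (detExp_smooth G).continuous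
  refine Measurable.ite ?_ ?_ measurable_const
  · exact (isOpen_lt (hh.continuous.comp continuous_fst) (hh.continuous.comp hex)).measurableSet
  · refine Measurable.mul measurable_snd.norm.inv (Measurable.mul ?_ ?_)
    · refine measurable_const.max ?_
      exact (hD.comp continuous_fst).measurable.inner (measurable_snd.norm.inv.smul measurable_snd)
    · exact (by fun_prop : Continuous fun z : E 2 × E 2 =>
        k * (‖z.2‖ * (G.T z.1 z.2).det) + 1 + Real.exp (-(k * ‖z.2‖))).measurable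

theorem Fp_eq_Fq {h : E 2 → ℝ} (hh : ContDiff ℝ 1 h) :
    ∫⁻ x, ∫⁻ v, Fp G k h (x, v) ∂volume ∂G.vol = ∫⁻ x, ∫⁻ v, Fq G k h (x, v) ∂volume ∂G.vol := by
  rw [← G.liouville (measurable_Fp hh)]
  simp only [Fp_flip]

/-! ### Lower bound -/

/-- Area in polar coordinates. -/
theorem polar_area (G : Geo 2) (x : E 2) {F : E 2 → ℝ≥0∞} (hF : Measurable F) :
    ∫⁻ y, F y ∂G.vol = ∫⁻ u : sphere (0 : E 2) 1, ∫⁻ r in Ioi (0 : ℝ),
      ENNReal.ofReal (jJ G x u r) * F (G.ex x (r • (u : E 2))) ∂volume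
        ∂((volume : Measure (E 2)).toSphere) := by
  have hT : Continuous fun v : E 2 => (G.T x v).det :=
    (detExp_smooth G).continuous.comp (continuous_const.prodMk continuous_id)
  have hex : Continuous fun v : E 2 => G.ex x v :=
    G.ex_smooth.continuous.comp (continuous_const.prodMk continuous_id)
  have hm : Measurable fun v : E 2 => ENNReal.ofReal |(G.T x v).det| * F (G.ex x v) :=
    hT.abs.measurable.ennreal_ofReal.mul (hF.comp hex.measurable)
  rw [G.lintegral_vol_ex x hF, polar (n := 2) (by norm_num) hm]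
  refine lintegral_congr fun u => setLIntegral_congr_fun measurableSet_Ioi fun r hr => ?_
  have hr0 : (0 : ℝ) < r := hr
  simp only [Nat.add_one_sub_one, pow_one]
  rw [← mul_assoc, ← ENNReal.ofReal_mul hr0.le, abs_of_pos (det_T_pos G x _)]
  rfl

theorem Fp_ray {h : E 2 → ℝ} (x : E 2) {u : E 2} (hu : ‖u‖ = 1) {r : ℝ} (hr : 0 < r) :
    ENNReal.ofReal (r ^ (2 - 1)) * Fp G k h (x, r • u) =
      ENNReal.ofReal (rayF k (fun r => h (G.ex x (r • u)))
        (fun r => inner ℝ (G.D h (G.ex x (r • u))) (G.V r x u)) (jJ G x u) r) := by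
  have hn1 : ‖r • u‖ = r := by rw [norm_smul, hu, mul_one, Real.norm_eq_abs, abs_of_pos hr]
  unfold Fp rayF
  rw [← ENNReal.ofReal_mul (by positivity)]
  congr 1
  simp only [hn1, zero_smul, G.ex_zero, G.V_eq, smul_smul, inv_mul_cancel₀ hr.ne', one_smul,
    Nat.add_one_sub_one, pow_one]
  split_ifs with h1
  · unfold jJ
    rw [← mul_assoc, mul_inv_cancel₀ hr.ne', one_mul]
  · rw [mul_zero]

theorem pair_lower (hk : 0 ≤ k) (hG : MonoSn G k) {h : E 2 → ℝ} (hh : ContDiff ℝ 1 h)
    (hc : HasCompactSupport h) (h0 : ∀ x, 0 ≤ h x) (x : E 2) :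
    ENNReal.ofReal (2 * h x) * (volume : Measure (E 2)).toSphere univ +
        ENNReal.ofReal (k ^ 2) * ∫⁻ y, ENNReal.ofReal (min (h x) (h y)) ∂G.vol ≤
      ∫⁻ v, Fp G k h (x, v) := by
  obtain ⟨L, hL⟩ := exists_lg_bound G hc x
  have hm : Measurable fun v : E 2 => Fp G k h (x, v) :=
    (measurable_Fp hh).comp (measurable_const.prodMk measurable_id)
  rw [polar (n := 2) (by norm_num) hm]
  have hmin : Measurable fun y => ENNReal.ofReal (min (h x) (h y)) :=
    (measurable_const.min hh.continuous.measurable).ennreal_ofReal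
  have e1 : ENNReal.ofReal (2 * h x) * (volume : Measure (E 2)).toSphere univ =
      ∫⁻ _u : sphere (0 : E 2) 1, ENNReal.ofReal (2 * h x)
        ∂((volume : Measure (E 2)).toSphere) := by
    rw [lintegral_const]
  rw [e1, polar_area G x hmin, ← lintegral_const_mul' _ _ ENNReal.ofReal_ne_top,
    ← lintegral_add_left measurable_const]
  refine lintegral_mono fun u => ?_
  have hu : ‖(u : E 2)‖ = 1 := by simp
  have hcg : ∫⁻ r in Ioi (0 : ℝ), ENNReal.ofReal (r ^ (2 - 1)) * Fp G k h (x, r • (u : E 2)) =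
      ∫⁻ r in Ioi (0 : ℝ), ENNReal.ofReal (rayF k (fun r => h (G.ex x (r • (u : E 2))))
        (fun r => inner ℝ (G.D h (G.ex x (r • (u : E 2)))) (G.V r x u)) (jJ G x u) r) :=
    setLIntegral_congr_fun measurableSet_Ioi fun r hr => Fp_ray x hu hr
  show _ ≤ ∫⁻ r in Ioi (0 : ℝ), ENNReal.ofReal (r ^ (2 - 1)) * Fp G k h (x, r • (u : E 2))
  rw [hcg]
  have hVc : Continuous fun r : ℝ => G.V r x (u : E 2) :=
    G.V_smooth.continuous.comp (by fun_prop : Continuous fun r : ℝ => (r, x, (u : E 2)))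
  have hexc : Continuous fun r : ℝ => G.ex x (r • (u : E 2)) :=
    G.ex_smooth.continuous.comp (continuous_const.prodMk (continuous_id.smul continuous_const))
  have hD : Continuous (G.D h) := PairGe.continuous_D G hh
  have hJ := jJ_contDiff G x (u : E 2)
  have h1 := ray_lint hk (f := fun r => h (G.ex x (r • (u : E 2))))
    (f' := fun r => inner ℝ (G.D h (G.ex x (r • (u : E 2)))) (G.V r x u))
    (j := jJ G x u) (j' := deriv (jJ G x u)) (ρ := max L 0 + 1)
    (fun r => G.hasDerivAt_geod hh x u r) ((hD.comp hexc).inner hVc) (fun r => h0 _)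
    (by positivity) (by
      intro r hr
      by_contra hne
      have h2 := hL _ (subset_tsupport h hne)
      rw [G.lg_ex, norm_smul, hu, mul_one, Real.norm_eq_abs] at h2
      have h3 := le_abs_self r
      have h4 := le_max_left L 0
      linarith)
    (fun r => (hJ.differentiable one_ne_zero r).hasDerivAt) (hJ.continuous_deriv le_rfl)
    (jJ_zero G x u) (fun r hr => jJ_ge hk hG x hu hr) (fun r hr => jJ_deriv hk hG x hu hr)
  refine le_trans (le_of_eq ?_) h1
  simp only [zero_smul, G.ex_zero]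
  congr 1
  rw [← lintegral_const_mul' _ _ ENNReal.ofReal_ne_top]
  refine setLIntegral_congr_fun measurableSet_Ioi fun r hr => ?_
  have hj0 : 0 ≤ jJ G x u r := (sn_pos hk hr).le.trans (jJ_ge hk hG x hu hr)
  rw [ENNReal.ofReal_mul (sq_nonneg k), ENNReal.ofReal_mul (le_min (h0 _) (h0 _)), mul_comm
    (ENNReal.ofReal (min _ _))]

end Vale.Agent.P219.N2
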