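import Vale.Agent.P219.SA.Func

/-! # `n = 2`: integration by parts along a ray -/

open MeasureTheory Set Metric
open scoped ENNReal ContDiff

namespace Vale.Agent.P219.N2

open Vale.Agent.P219.TP Vale.Agent.P219.TPH

/-- `cosh (k r) - k sn = exp (- k r)`. -/
theorem cs_sub_sn (k r : ℝ) : cs k r - k * sn k r = Real.exp (-(k * r)) := by
  rw [h1_sinh]
  unfold cs
  rw [Real.cosh_sub_sinh]

/-- The continuous cut-off. -/
noncomputable def rψ (c ε t : ℝ) : ℝ := max 0 (min 1 ((c - t) / ε))

theorem rψ_cont (c ε : ℝ) : Continuous (rψ c ε) := by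
  unfold rψ
  fun_prop

theorem rψ_nonneg (c ε t : ℝ) : 0 ≤ rψ c ε t := le_max_left _ _

theorem rψ_le_one (c ε t : ℝ) : rψ c ε t ≤ 1 := max_le zero_le_one (min_le_left _ _)

theorem rψ_zero {c ε t : ℝ} (hε : 0 < ε) (h : c ≤ t) : rψ c ε t = 0 := by
  unfold rψ
  rw [max_eq_left]
  exact (min_le_right _ _).trans (div_nonpos_of_nonpos_of_nonneg (by linarith) hε.le)

theorem rψ_one {c ε t : ℝ} (hε : 0 < ε) (h : t ≤ c - ε) : rψ c ε t = 1 := by
  unfold rψ
  rw [min_eq_left ((one_le_div hε).2 (by linarith)), max_eq_right zero_le_one]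

/-- The primitive of the cut-off. -/
noncomputable def rφ (c ε t : ℝ) : ℝ := ∫ s in (0 : ℝ)..t, rψ c ε s

theorem rφ_deriv (c ε t : ℝ) : HasDerivAt (rφ c ε) (rψ c ε t) t :=
  intervalIntegral.integral_hasDerivAt_right ((rψ_cont c ε).intervalIntegrable _ _)
    ((rψ_cont c ε).stronglyMeasurableAtFilter _ _) (rψ_cont c ε).continuousAt

theorem rφ_zero (c ε : ℝ) : rφ c ε 0 = 0 := intervalIntegral.integral_same

theorem rφ_ge {c ε t : ℝ} (hε : 0 < ε) (ht : 0 ≤ t) : min t c - ε ≤ rφ c ε t := by
  rcases le_total (min t c - ε) 0 with h0 | h0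
  · exact h0.trans (intervalIntegral.integral_nonneg ht fun s _ => rψ_nonneg c ε s)
  have h1 : min t c - ε ≤ t := by linarith [min_le_left t c]
  have h2 : ∫ s in (0 : ℝ)..(min t c - ε), rψ c ε s = min t c - ε := by
    have : ∫ s in (0 : ℝ)..(min t c - ε), rψ c ε s = ∫ _s in (0 : ℝ)..(min t c - ε), (1 : ℝ) := by
      refine intervalIntegral.integral_congr fun s hs => ?_
      rw [uIcc_of_le h0] at hs
      exact rψ_one hε (hs.2.trans (by linarith [min_le_right t c]))
    rw [this]
    simp
  have h3 : rφ c ε t = (∫ s in (0 : ℝ)..(min t c - ε), rψ c ε s) +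
      ∫ s in (min t c - ε)..t, rψ c ε s :=
    (intervalIntegral.integral_add_adjacent_intervals
      ((rψ_cont c ε).intervalIntegrable _ _) ((rψ_cont c ε).intervalIntegrable _ _)).symm
  have h4 : 0 ≤ ∫ s in (min t c - ε)..t, rψ c ε s :=
    intervalIntegral.integral_nonneg h1 fun s _ => rψ_nonneg c ε s
  rw [h3, h2]
  linarith

/-- The function of the ray. -/
noncomputable def rayF (k : ℝ) (f f' j : ℝ → ℝ) (r : ℝ) : ℝ :=
  if f r < f 0 then max 0 (-(f' r)) * (k * j r + 1 + Real.exp (-(k * r))) else 0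

theorem ray_real {k : ℝ} (hk : 0 ≤ k) {f f' j j' : ℝ → ℝ} (hf : ∀ r, HasDerivAt f (f' r) r)
    (hf' : Continuous f') (hf0 : ∀ r, 0 ≤ f r) {ρ : ℝ} (hρ : 0 ≤ ρ) (hfρ : f ρ = 0)
    (hj : ∀ r, HasDerivAt j (j' r) r) (hj' : Continuous j') (hj0 : j 0 = 0)
    (hsn : ∀ r, 0 < r → sn k r ≤ j r) (hct : ∀ r, 0 < r → j r * cs k r ≤ j' r * sn k r) :
    2 * f 0 + ∫ r in (0 : ℝ)..ρ, k ^ 2 * (min (f 0) (f r) * j r) ≤
      ∫ r in (0 : ℝ)..ρ, rayF k f f' j r := by
  have hfc : Continuous f := continuous_iff_continuousAt.2 fun r => (hf r).continuousAt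
  have hjc : Continuous j := continuous_iff_continuousAt.2 fun r => (hj r).continuousAt
  set c : ℝ := f 0 with hc
  -- the weight
  set W : ℝ → ℝ := fun r => k * j r + 1 + Real.exp (-(k * r)) with hW
  set W' : ℝ → ℝ := fun r => k * j' r - k * Real.exp (-(k * r)) with hW'
  have hWd : ∀ r, HasDerivAt W (W' r) r := by
    intro r
    have h1 : HasDerivAt (fun r : ℝ => Real.exp (-(k * r))) (Real.exp (-(k * r)) * (-(k * 1))) r :=
      (((hasDerivAt_id' r).const_mul k).neg).exp
    have h2 := (((hj r).const_mul k).add_const 1).add h1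
    refine h2.congr_deriv ?_
    show _ = k * j' r - k * Real.exp (-(k * r))
    ring
  have hWc : Continuous W := continuous_iff_continuousAt.2 fun r => (hWd r).continuousAt
  have hWc' : Continuous W' := by
    simp only [hW']
    fun_prop
  have hj_nonneg : ∀ r, 0 < r → 0 ≤ j r := fun r hr => (sn_pos hk hr).le.trans (hsn r hr)
  have hW0 : ∀ r, 0 ≤ r → 0 ≤ W r := by
    intro r hr
    rcases hr.eq_or_lt with h0 | h0
    · rw [← h0]
      simp only [hW, hj0]
      positivity
    · have := mul_nonneg hk (hj_nonneg r h0)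
      have h2 := Real.exp_pos (-(k * r))
      simp only [hW]
      linarith
  have hW'k : ∀ r, 0 < r → k ^ 2 * j r ≤ W' r := by
    intro r hr
    have hs := sn_pos hk hr
    have e1 := hct r hr
    have e2 := cs_sub_sn k r
    have e3 := hsn r hr
    have e4 := Real.exp_pos (-(k * r))
    have e5 : 0 ≤ (W' r - k ^ 2 * j r) * sn k r := by
      have : (W' r - k ^ 2 * j r) * sn k r = k * (j' r * sn k r - j r * cs k r) +
          k * (Real.exp (-(k * r)) * (j r - sn k r)) := by
        simp only [hW']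
        rw [← e2]
        ring
      rw [this]
      have a1 := mul_nonneg hk (sub_nonneg.2 e1)
      have a2 := mul_nonneg hk (mul_nonneg e4.le (sub_nonneg.2 e3))
      linarith
    have := nonneg_of_mul_nonneg_left e5 hs
    linarith
  -- integrability
  have hFint : IntervalIntegrable (rayF k f f' j) volume 0 ρ := by
    rw [intervalIntegrable_iff_integrableOn_Ioc_of_le hρ]
    have h1 : rayF k f f' j = {r | f r < c}.indicator (fun r => max 0 (-(f' r)) * W r) := by
      funext r
      by_cases h : f r < c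
      · rw [indicator_of_mem (by exact h)]
        unfold rayF
        rw [if_pos h]
      · rw [indicator_of_notMem (by exact h)]
        unfold rayF
        rw [if_neg h]
    rw [h1]
    refine IntegrableOn.indicator ?_ (isOpen_lt hfc continuous_const).measurableSet
    exact ((continuous_const.max hf'.neg).mul hWc).integrableOn_Ioc
  set I : ℝ := ∫ r in (0 : ℝ)..ρ, rayF k f f' j r with hI
  set Jj : ℝ := ∫ r in (0 : ℝ)..ρ, j r with hJj
  have hJj0 : 0 ≤ Jj := by
    refine intervalIntegral.integral_nonneg_of_ae_restrict hρ ?_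
    refine (ae_restrict_iff' measurableSet_Icc).2 (Filter.Eventually.of_forall fun r hr => ?_)
    rcases hr.1.eq_or_lt with h0 | h0
    · rw [← h0, hj0]
      rfl
    · exact hj_nonneg r h0
  have key : ∀ ε > 0, 2 * c + (∫ r in (0 : ℝ)..ρ, k ^ 2 * (min c (f r) * j r)) ≤
      I + ε * (2 + k ^ 2 * Jj) := by
    intro ε hε
    set φ : ℝ → ℝ := rφ c ε with hφ
    have hφc : Continuous φ := continuous_iff_continuousAt.2 fun t => (rφ_deriv c ε t).continuousAt
    have hd : ∀ r, HasDerivAt (fun r => φ (f r) * W r)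
        (rψ c ε (f r) * f' r * W r + φ (f r) * W' r) r := by
      intro r
      have h1 : HasDerivAt (fun r => φ (f r)) (rψ c ε (f r) * f' r) r :=
        (rφ_deriv c ε (f r)).comp r (hf r)
      exact h1.mul (hWd r)
    have hc1 : Continuous fun r => rψ c ε (f r) * f' r * W r :=
      (((rψ_cont c ε).comp hfc).mul hf').mul hWc
    have hc2 : Continuous fun r => φ (f r) * W' r := (hφc.comp hfc).mul hWc'
    have e1 : ∫ r in (0 : ℝ)..ρ, (rψ c ε (f r) * f' r * W r + φ (f r) * W' r) =
        φ (f ρ) * W ρ - φ (f 0) * W 0 :=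
      intervalIntegral.integral_eq_sub_of_hasDerivAt (fun r _ => hd r)
        ((hc1.add hc2).intervalIntegrable _ _)
    rw [intervalIntegral.integral_add (hc1.intervalIntegrable _ _) (hc2.intervalIntegrable _ _)]
      at e1
    have e2 : φ (f ρ) = 0 := by
      rw [hfρ, hφ, rφ_zero]
    have e3 : W 0 = 2 := by
      simp only [hW, hj0]
      norm_num
    rw [e2, e3, zero_mul, ← hc] at e1
    -- upper bound
    have e4 : -(∫ r in (0 : ℝ)..ρ, rψ c ε (f r) * f' r * W r) ≤ I := by
      rw [← intervalIntegral.integral_neg, hI]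
      refine intervalIntegral.integral_mono_on hρ (hc1.neg.intervalIntegrable _ _) hFint ?_
      intro r hr
      unfold rayF
      have w0 := hW0 r hr.1
      split_ifs with h
      · have a1 := rψ_nonneg c ε (f r)
        have a2 := rψ_le_one c ε (f r)
        have a3 : -(rψ c ε (f r) * f' r) ≤ max 0 (-(f' r)) := by
          rcases le_total 0 (-(f' r)) with h3 | h3
          · rw [max_eq_right h3]
            nlinarith
          · rw [max_eq_left h3]
            nlinarith
        have a4 := mul_le_mul_of_nonneg_right a3 w0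
        have a5 : -(rψ c ε (f r) * f' r * W r) = -(rψ c ε (f r) * f' r) * W r := by ring
        rw [a5]
        exact a4
      · rw [rψ_zero hε (not_lt.1 h)]
        simp
    -- lower bound
    have e5 : (∫ r in (0 : ℝ)..ρ, k ^ 2 * (min c (f r) * j r)) - ε * (k ^ 2 * Jj) ≤
        ∫ r in (0 : ℝ)..ρ, φ (f r) * W' r := by
      have hci : Continuous fun r => k ^ 2 * (min c (f r) * j r) := by fun_prop
      have hci2 : Continuous fun r => ε * (k ^ 2 * j r) := by fun_prop
      have : (∫ r in (0 : ℝ)..ρ, k ^ 2 * (min c (f r) * j r)) - ε * (k ^ 2 * Jj) =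
          ∫ r in (0 : ℝ)..ρ, (k ^ 2 * (min c (f r) * j r) - ε * (k ^ 2 * j r)) := by
        rw [intervalIntegral.integral_sub (hci.intervalIntegrable _ _)
          (hci2.intervalIntegrable _ _), intervalIntegral.integral_const_mul ε,
          intervalIntegral.integral_const_mul (k ^ 2) j]
      rw [this]
      refine intervalIntegral.integral_mono_on_of_le_Ioo hρ
        ((hci.sub hci2).intervalIntegrable _ _) (hc2.intervalIntegrable _ _) ?_
      intro r hr
      have a1 := hW'k r hr.1
      have a2 := hj_nonneg r hr.1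
      have a3 : min (f r) c - ε ≤ φ (f r) := rφ_ge hε (hf0 r)
      have a4 : 0 ≤ φ (f r) := intervalIntegral.integral_nonneg (hf0 r)
        fun s _ => rψ_nonneg c ε s
      have a5 : 0 ≤ k ^ 2 * j r := by positivity
      rw [min_comm] at a3
      calc k ^ 2 * (min c (f r) * j r) - ε * (k ^ 2 * j r) = (min c (f r) - ε) * (k ^ 2 * j r) := by
            ring
        _ ≤ φ (f r) * (k ^ 2 * j r) := mul_le_mul_of_nonneg_right a3 a5
        _ ≤ φ (f r) * W' r := mul_le_mul_of_nonneg_left a1 a4
    have e6 : c - ε ≤ φ c := by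
      have := rφ_ge (c := c) hε (hf0 0)
      rwa [← hc, min_self] at this
    linarith
  refine le_of_forall_pos_le_add fun ε hε => ?_
  have h2 : 0 < 2 + k ^ 2 * Jj := by positivity
  have := key (ε / (2 + k ^ 2 * Jj)) (by positivity)
  rwa [div_mul_cancel₀ _ h2.ne'] at this

theorem ray_lint {k : ℝ} (hk : 0 ≤ k) {f f' j j' : ℝ → ℝ} (hf : ∀ r, HasDerivAt f (f' r) r)
    (hf' : Continuous f') (hf0 : ∀ r, 0 ≤ f r) {ρ : ℝ} (hρ : 0 ≤ ρ) (hfρ : ∀ r, ρ ≤ r → f r = 0)
    (hj : ∀ r, HasDerivAt j (j' r) r) (hj' : Continuous j') (hj0 : j 0 = 0)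
    (hsn : ∀ r, 0 < r → sn k r ≤ j r) (hct : ∀ r, 0 < r → j r * cs k r ≤ j' r * sn k r) :
    ENNReal.ofReal (2 * f 0) +
        ∫⁻ r in Ioi (0 : ℝ), ENNReal.ofReal (k ^ 2 * (min (f 0) (f r) * j r)) ≤
      ∫⁻ r in Ioi (0 : ℝ), ENNReal.ofReal (rayF k f f' j r) := by
  have h := ray_real hk hf hf' hf0 hρ (hfρ ρ le_rfl) hj hj' hj0 hsn hct
  have hfc : Continuous f := continuous_iff_continuousAt.2 fun r => (hf r).continuousAt
  have hjc : Continuous j := continuous_iff_continuousAt.2 fun r => (hj r).continuousAt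
  have hj_nonneg : ∀ r, 0 < r → 0 ≤ j r := fun r hr => (sn_pos hk hr).le.trans (hsn r hr)
  have hF0 : ∀ r, 0 < r → 0 ≤ rayF k f f' j r := by
    intro r hr
    unfold rayF
    split_ifs
    · have := mul_nonneg hk (hj_nonneg r hr)
      have h2 := Real.exp_pos (-(k * r))
      exact mul_nonneg (le_max_left _ _) (by linarith)
    · exact le_rfl
  have hFint : IntegrableOn (rayF k f f' j) (Ioc 0 ρ) volume := by
    have h1 : rayF k f f' j = {r | f r < f 0}.indicator
        (fun r => max 0 (-(f' r)) * (k * j r + 1 + Real.exp (-(k * r)))) := by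
      funext r
      by_cases h : f r < f 0
      · rw [indicator_of_mem (by exact h)]
        unfold rayF
        rw [if_pos h]
      · rw [indicator_of_notMem (by exact h)]
        unfold rayF
        rw [if_neg h]
    rw [h1]
    refine IntegrableOn.indicator ?_ (isOpen_lt hfc continuous_const).measurableSet
    exact ((continuous_const.max hf'.neg).mul (by fun_prop)).integrableOn_Ioc
  have e1 : ∫⁻ r in Ioi (0 : ℝ), ENNReal.ofReal (k ^ 2 * (min (f 0) (f r) * j r)) =
      ENNReal.ofReal (∫ r in (0 : ℝ)..ρ, k ^ 2 * (min (f 0) (f r) * j r)) := by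
    have hcc : Continuous fun r => k ^ 2 * (min (f 0) (f r) * j r) := by fun_prop
    rw [intervalIntegral.integral_of_le hρ, ofReal_integral_eq_lintegral_ofReal]
    · rw [← Ioc_union_Ioi_eq_Ioi hρ, lintegral_union measurableSet_Ioi Ioc_disjoint_Ioi_same]
      have : ∫⁻ r in Ioi ρ, ENNReal.ofReal (k ^ 2 * (min (f 0) (f r) * j r)) = 0 := by
        rw [setLIntegral_congr_fun measurableSet_Ioi (g := fun _ => 0)]
        · simp
        intro r hr
        simp only
        rw [hfρ r (le_of_lt hr), min_eq_right (hf0 0)]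
        simp
      rw [this, add_zero]
    · exact hcc.integrableOn_Ioc
    · refine (ae_restrict_mem measurableSet_Ioc).mono fun r hr => ?_
      exact mul_nonneg (sq_nonneg k) (mul_nonneg (le_min (hf0 0) (hf0 r)) (hj_nonneg r hr.1))
  have e2 : ENNReal.ofReal (∫ r in (0 : ℝ)..ρ, rayF k f f' j r) ≤
      ∫⁻ r in Ioi (0 : ℝ), ENNReal.ofReal (rayF k f f' j r) := by
    rw [intervalIntegral.integral_of_le hρ, ofReal_integral_eq_lintegral_ofReal hFint]
    · exact lintegral_mono_set Ioc_subset_Ioi_self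
    · exact (ae_restrict_mem measurableSet_Ioc).mono fun r hr => hF0 r hr.1
  rw [e1, ← ENNReal.ofReal_add (mul_nonneg zero_le_two (hf0 0))]
  · exact (ENNReal.ofReal_le_ofReal h).trans e2
  · rw [intervalIntegral.integral_of_le hρ]
    refine setIntegral_nonneg measurableSet_Ioc fun r hr => ?_
    exact mul_nonneg (sq_nonneg k) (mul_nonneg (le_min (hf0 0) (hf0 r)) (hj_nonneg r hr.1))

end Vale.Agent.P219.N2
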