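import Vale.Agent.P219.N2.Circle
import Vale.Agent.P219.TPH.ModelH
import Vale.Agent.P219.TPH.Sn
import Vale.Agent.P219.TP.RayIneq

/-! # P219, dimension two: the model functions -/

open MeasureTheory Set Metric
open scoped ENNReal ContDiff

namespace Vale.Agent.P219.N2

open Vale.Agent.P219.TP Vale.Agent.P219.TPH

/-- `∫_0^L sn`. -/
noncomputable def cc (k L : ℝ) : ℝ := if k = 0 then L ^ 2 / 2 else (cs k L - 1) / k ^ 2

/-- Curvature of the model circle. -/
noncomputable def ct (k R : ℝ) : ℝ := cs k R / sn k R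

/-- Half the length of the chord with cosine `s`. -/
noncomputable def fR (k R s : ℝ) : ℝ :=
  if k = 0 then R * clip s else Real.artanh (Real.tanh (k * R) * clip s) / k

noncomputable def C2 (k R : ℝ) : ℝ :=
  if k = 0 then Real.pi * R / 2 else Real.pi / k * Real.tanh (k * R / 2)

theorem cc_zero (k : ℝ) : cc k 0 = 0 := by
  unfold cc
  split_ifs <;> simp [cs_zero]

theorem hasDerivAt_cc (k L : ℝ) : HasDerivAt (cc k) (sn k L) L := by
  by_cases hk : k = 0
  · subst hk
    have e : cc 0 = fun L => L ^ 2 / 2 := by funext x; simp [cc]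
    rw [e, h1_sn_z]
    have := (hasDerivAt_pow 2 L).div_const 2
    simpa using this
  · have e : cc k = fun L => (cs k L - 1) / k ^ 2 := by funext x; simp [cc, hk]
    rw [e]
    have := ((hasDerivAt_cs k L).sub_const 1).div_const (k ^ 2)
    rwa [mul_div_cancel_left₀ _ (pow_ne_zero 2 hk)] at this

theorem integral_sn (k L : ℝ) : ∫ t in (0 : ℝ)..L, sn k t = cc k L := by
  rw [intervalIntegral.integral_eq_sub_of_hasDerivAt (fun x _ => hasDerivAt_cc k x)
    ((contDiff_sn k).continuous.intervalIntegrable _ _), cc_zero, sub_zero]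

theorem ct_pos {k R : ℝ} (hk : 0 ≤ k) (hR : 0 < R) : 0 < ct k R :=
  div_pos (zero_lt_one.trans_le (one_le_cs k R)) (sn_pos hk hR)

theorem lt_ct {k R : ℝ} (hk : 0 ≤ k) (hR : 0 < R) : k < ct k R := by
  unfold ct
  rw [lt_div_iff₀ (sn_pos hk hR), h1_sinh]
  unfold cs
  exact Real.sinh_lt_cosh _

theorem tanh_pos' {x : ℝ} (hx : 0 < x) : 0 < Real.tanh x := by
  rw [Real.tanh_eq_sinh_div_cosh]
  exact div_pos (Real.sinh_pos_iff.2 hx) (Real.cosh_pos _)

theorem Ts_mem {k R : ℝ} (hk : 0 < k) (hR : 0 < R) {s : ℝ} (h0 : 0 ≤ s) (h1 : s ≤ 1) :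
    0 ≤ Real.tanh (k * R) * s ∧ Real.tanh (k * R) * s < 1 := by
  have hT := tanh_pos' (mul_pos hk hR)
  have hT1 := Real.tanh_lt_one (k * R)
  exact ⟨mul_nonneg hT.le h0, by nlinarith⟩

theorem fR_nonneg {k R : ℝ} (hk : 0 ≤ k) (hR : 0 < R) (s : ℝ) : 0 ≤ fR k R s := by
  unfold fR
  have hc := clip_mem s
  split_ifs with h
  · exact mul_nonneg hR.le hc.1
  · have hk' : 0 < k := lt_of_le_of_ne hk (Ne.symm h)
    exact div_nonneg (Real.artanh_nonneg (Ts_mem hk' hR hc.1 hc.2).1) hk'.le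

theorem hasDerivAt_artanh {x : ℝ} (h0 : -1 < x) (h1 : x < 1) :
    HasDerivAt Real.artanh (1 / (1 - x ^ 2)) x := by
  have hm : Ioo (-1 : ℝ) 1 ∈ nhds x := Ioo_mem_nhds h0 h1
  have e : Real.artanh =ᶠ[nhds x] fun y => 1 / 2 * (Real.log (1 + y) - Real.log (1 - y)) := by
    filter_upwards [hm] with y hy
    rw [Real.artanh_eq_half_log ⟨hy.1.le, hy.2.le⟩, Real.log_div (by linarith [hy.1])
      (by linarith [hy.2])]
  have h2 : HasDerivAt (fun y : ℝ => Real.log (1 + y)) (1 / (1 + x)) x := by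
    have := ((hasDerivAt_id x).const_add 1).log (by simp only [id]; linarith)
    simpa using this
  have h3 : HasDerivAt (fun y : ℝ => Real.log (1 - y)) (-1 / (1 - x)) x := by
    have := ((hasDerivAt_id x).const_sub 1).log (by simp only [id]; linarith)
    simpa using this
  have h4 := ((h2.sub h3).const_mul (1 / 2)).congr_of_eventuallyEq e
  have a1 : (1 + x) ≠ 0 := by linarith
  have a2 : (1 - x) ≠ 0 := by linarith
  have a3 : 1 - x ^ 2 = (1 + x) * (1 - x) := by ring
  have a4 : 1 / 2 * (1 / (1 + x) - -1 / (1 - x)) = 1 / (1 - x ^ 2) := by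
    rw [a3]
    field_simp
    ring
  rw [← a4]
  exact h4

theorem continuous_fR {k R : ℝ} (hk : 0 ≤ k) (hR : 0 < R) : Continuous (fR k R) := by
  by_cases h : k = 0
  · have e : fR k R = fun s => R * clip s := by funext s; simp [fR, h]
    rw [e]
    exact continuous_const.mul continuous_clip
  · have hk' : 0 < k := lt_of_le_of_ne hk (Ne.symm h)
    have e : fR k R = fun s => Real.artanh (Real.tanh (k * R) * clip s) / k := by
      funext s; simp [fR, h]
    rw [e]
    refine Continuous.div_const ?_ k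
    rw [continuous_iff_continuousAt]
    intro s
    have hm := Ts_mem hk' hR (clip_mem s).1 (clip_mem s).2
    have h1 := (hasDerivAt_artanh (x := Real.tanh (k * R) * clip s) (by linarith) hm.2).continuousAt
    exact ContinuousAt.comp (g := Real.artanh) (f := fun s => Real.tanh (k * R) * clip s) h1
      (continuous_const.mul continuous_clip).continuousAt

/-- The defining relation of the half chord. -/
theorem fR_spec {k R s : ℝ} (hk : 0 ≤ k) (hR : 0 < R) (h0 : 0 ≤ s) (h1 : s ≤ 1) :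
    s * cs k (fR k R s) = ct k R * sn k (fR k R s) := by
  unfold fR ct
  rw [clip_of_mem h0 h1]
  split_ifs with h
  · subst h
    simp only [h1_sn_z, cs, zero_mul, Real.cosh_zero]
    field_simp
  · have hk' : 0 < k := lt_of_le_of_ne hk (Ne.symm h)
    have hm := Ts_mem hk' hR h0 h1
    have hT := tanh_pos' (mul_pos hk' hR)
    have ht := Real.tanh_artanh (x := Real.tanh (k * R) * s) ⟨by linarith, hm.2⟩
    have hc := Real.cosh_pos (Real.artanh (Real.tanh (k * R) * s))
    rw [Real.tanh_eq_sinh_div_cosh, div_eq_iff hc.ne'] at ht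
    have hs := Real.sinh_pos_iff.2 (mul_pos hk' hR)
    have hcR := Real.cosh_pos (k * R)
    simp only [h1_sn_nz h, cs]
    rw [mul_div_cancel₀ _ h, ht, Real.tanh_eq_sinh_div_cosh]
    field_simp

/-- The function of (S1). -/
noncomputable def gg (k R s r : ℝ) : ℝ := s * (1 + cs k r) - ct k R * sn k r

theorem cs_two (k r : ℝ) : 1 + cs k r = 2 * cs k (r / 2) ^ 2 := by
  rw [h1_cs_half, cs_sq]
  ring

theorem sn_two (k r : ℝ) : sn k r = 2 * (sn k (r / 2) * cs k (r / 2)) := by
  have h := h1_sub k (r / 2) (-(r / 2))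
  have e1 : sn k (-(r / 2)) = -sn k (r / 2) := by
    unfold sn
    split_ifs
    · rfl
    · rw [mul_neg, Real.sinh_neg, neg_div]
  have e2 : cs k (-(r / 2)) = cs k (r / 2) := by
    unfold cs
    rw [mul_neg, Real.cosh_neg]
  rw [e1, e2, sub_neg_eq_add, add_halves] at h
  rw [h]
  ring

theorem cc_two (k r : ℝ) : cc k r = 2 * sn k (r / 2) ^ 2 := by
  unfold cc
  split_ifs with h
  · subst h
    simp only [h1_sn_z]
    ring
  · rw [h1_cs_half]
    field_simp
    ring

theorem gg_eq {k R s : ℝ} (hk : 0 ≤ k) (hR : 0 < R) (h0 : 0 ≤ s) (h1 : s ≤ 1) (r : ℝ) :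
    gg k R s r = 2 * cs k (r / 2) * (ct k R / cs k (fR k R s) * sn k (fR k R s - r / 2)) := by
  have hs := fR_spec hk hR h0 h1
  have hc : 0 < cs k (fR k R s) := zero_lt_one.trans_le (one_le_cs _ _)
  have hs' : s = ct k R * sn k (fR k R s) / cs k (fR k R s) := by
    rw [eq_div_iff hc.ne', hs]
  unfold gg
  rw [cs_two, sn_two, h1_sub]
  set f := fR k R s
  rw [hs']
  field_simp

theorem gg_nonneg {k R s : ℝ} (hk : 0 ≤ k) (hR : 0 < R) (h0 : 0 ≤ s) (h1 : s ≤ 1) {r : ℝ}
    (hr : r ≤ 2 * fR k R s) : 0 ≤ gg k R s r := by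
  rw [gg_eq hk hR h0 h1]
  have hc : ∀ x, 0 < cs k x := fun x => zero_lt_one.trans_le (one_le_cs _ _)
  have h2 : 0 ≤ sn k (fR k R s - r / 2) := modelH_sn_nonneg hk (by linarith)
  have := ct_pos hk hR
  have := hc (r / 2)
  have := hc (fR k R s)
  positivity

theorem gg_nonpos {k R s : ℝ} (hk : 0 ≤ k) (hR : 0 < R) (h0 : 0 ≤ s) (h1 : s ≤ 1) {r : ℝ}
    (hr : 2 * fR k R s ≤ r) : gg k R s r ≤ 0 := by
  rw [gg_eq hk hR h0 h1]
  have hc : ∀ x, 0 < cs k x := fun x => zero_lt_one.trans_le (one_le_cs _ _)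
  have h2 : sn k (fR k R s - r / 2) ≤ 0 := by
    have := (sn_strictMono hk).monotone (show fR k R s - r / 2 ≤ 0 by linarith)
    rwa [sn_zero] at this
  have h3 := ct_pos hk hR
  have h4 := hc (r / 2)
  have h5 := hc (fR k R s)
  have h6 : ct k R / cs k (fR k R s) * sn k (fR k R s - r / 2) ≤ 0 :=
    mul_nonpos_of_nonneg_of_nonpos (by positivity) h2
  exact mul_nonpos_of_nonneg_of_nonpos (by positivity) h6

/-- Primitive of `gg`. -/
noncomputable def GG (k R s L : ℝ) : ℝ := s * (L + sn k L) - ct k R * cc k L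

theorem hasDerivAt_GG (k R s L : ℝ) : HasDerivAt (GG k R s) (gg k R s L) L := by
  unfold GG gg
  exact (((hasDerivAt_id L).add (hasDerivAt_sn k L)).const_mul s).sub
    ((hasDerivAt_cc k L).const_mul (ct k R))

theorem continuous_gg (k R s : ℝ) : Continuous (gg k R s) := by
  unfold gg
  exact (continuous_const.mul (continuous_const.add (contDiff_cs k).continuous)).sub
    (continuous_const.mul (contDiff_sn k).continuous)

theorem GG_zero (k R s : ℝ) : GG k R s 0 = 0 := by
  unfold GG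
  rw [sn_zero, cc_zero]
  ring

theorem GG_max {k R s : ℝ} (hk : 0 ≤ k) (hR : 0 < R) (h0 : 0 ≤ s) (h1 : s ≤ 1) :
    GG k R s (2 * fR k R s) = 2 * (s * fR k R s) := by
  have hs := fR_spec hk hR h0 h1
  unfold GG
  rw [sn_two, cc_two, mul_div_cancel_left₀ _ (two_ne_zero)]
  have : ct k R * (2 * sn k (fR k R s) ^ 2) = 2 * (ct k R * sn k (fR k R s)) * sn k (fR k R s) := by
    ring
  rw [this, ← hs]
  ring

/-- (A): the line inequality. -/
theorem GG_le {k R s : ℝ} (hk : 0 ≤ k) (hR : 0 < R) (h0 : 0 ≤ s) (h1 : s ≤ 1) {L : ℝ}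
    (hL : 0 ≤ L) : GG k R s L ≤ 2 * (s * fR k R s) := by
  rw [← GG_max hk hR h0 h1]
  have hf := fR_nonneg hk hR s
  have hd : Differentiable ℝ (GG k R s) := fun x => (hasDerivAt_GG k R s x).differentiableAt
  rcases le_total L (2 * fR k R s) with h | h
  · refine monotoneOn_of_deriv_nonneg (convex_Icc 0 (2 * fR k R s)) hd.continuous.continuousOn
      hd.differentiableOn ?_ ⟨hL, h⟩ ⟨by positivity, le_rfl⟩ h
    intro x hx
    rw [interior_Icc] at hx
    rw [(hasDerivAt_GG k R s x).deriv]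
    exact gg_nonneg hk hR h0 h1 hx.2.le
  · refine antitoneOn_of_deriv_nonpos (convex_Ici (2 * fR k R s)) hd.continuous.continuousOn
      hd.differentiableOn ?_ self_mem_Ici h h
    intro x hx
    rw [interior_Ici] at hx
    rw [(hasDerivAt_GG k R s x).deriv]
    exact gg_nonpos hk hR h0 h1 (le_of_lt hx)

/-- The form with the parameter `lam = ct / 2`. -/
theorem line_le {k R s : ℝ} (hk : 0 ≤ k) (hR : 0 < R) (h0 : 0 < s) (h1 : s ≤ 1) {L : ℝ}
    (hL : 0 ≤ L) :
    L - fR k R s ≤ ct k R / 2 / s * cc k L - (sn k L - L) / 2 := by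
  have h := GG_le hk hR h0.le h1 hL
  unfold GG at h
  have e : ct k R / 2 / s * cc k L - (sn k L - L) / 2 - (L - fR k R s) =
      (2 * (s * fR k R s) - (s * (L + sn k L) - ct k R * cc k L)) / (2 * s) := by
    field_simp
    ring
  have : 0 ≤ ct k R / 2 / s * cc k L - (sn k L - L) / 2 - (L - fR k R s) := by
    rw [e]
    exact div_nonneg (by linarith) (by positivity)
  linarith

/-- (S1), the integral of the positive part. -/
theorem lintegral_gg {k R s : ℝ} (hk : 0 ≤ k) (hR : 0 < R) (h0 : 0 ≤ s) (h1 : s ≤ 1) :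
    ∫⁻ r in Ioi (0 : ℝ), ENNReal.ofReal (gg k R s r) = ENNReal.ofReal (2 * (s * fR k R s)) := by
  have hf := fR_nonneg hk hR s
  have hf2 : 0 ≤ 2 * fR k R s := by positivity
  have e1 : ∫⁻ r in Ioi (0 : ℝ), ENNReal.ofReal (gg k R s r) =
      ∫⁻ r in Ioc 0 (2 * fR k R s), ENNReal.ofReal (gg k R s r) := by
    rw [← lintegral_indicator measurableSet_Ioi, ← lintegral_indicator measurableSet_Ioc]
    refine lintegral_congr fun r => ?_
    by_cases hr : r ∈ Ioc 0 (2 * fR k R s)
    · rw [indicator_of_mem hr, indicator_of_mem (show r ∈ Ioi (0 : ℝ) from hr.1)]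
    · rw [indicator_of_notMem hr]
      by_cases hr0 : r ∈ Ioi (0 : ℝ)
      · rw [indicator_of_mem hr0, ENNReal.ofReal_eq_zero]
        refine gg_nonpos hk hR h0 h1 ?_
        by_contra hlt
        exact hr ⟨hr0, (not_le.1 hlt).le⟩
      · rw [indicator_of_notMem hr0]
  rw [e1, ← ofReal_integral_eq_lintegral_ofReal, ← intervalIntegral.integral_of_le hf2,
    intervalIntegral.integral_eq_sub_of_hasDerivAt (fun x _ => hasDerivAt_GG k R s x)
    ((continuous_gg k R s).intervalIntegrable _ _), GG_zero, GG_max hk hR h0 h1, sub_zero]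
  · exact ((continuous_gg k R s).integrableOn_Icc).mono_set Ioc_subset_Icc_self
  · filter_upwards [self_mem_ae_restrict measurableSet_Ioc] with r hr
    exact gg_nonneg hk hR h0 h1 hr.2


/-! ### The integral over the directions -/

theorem tanh_half {x : ℝ} (hx : 0 < x) :
    (1 - 1 / Real.cosh x) / Real.tanh x = Real.tanh (x / 2) := by
  have hc := Real.cosh_pos x
  have hs := Real.sinh_pos_iff.2 hx
  have hc2 := Real.cosh_pos (x / 2)
  have hs2 := Real.sinh_pos_iff.2 (half_pos hx)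
  have e1 : Real.cosh x = 1 + 2 * Real.sinh (x / 2) ^ 2 := by
    have h := Real.cosh_two_mul (x / 2)
    rw [show 2 * (x / 2) = x by ring, Real.cosh_sq] at h
    linarith
  have e2 : Real.sinh x = 2 * Real.sinh (x / 2) * Real.cosh (x / 2) := by
    have h := Real.sinh_two_mul (x / 2)
    rwa [show 2 * (x / 2) = x by ring] at h
  rw [Real.tanh_eq_sinh_div_cosh, Real.tanh_eq_sinh_div_cosh]
  have e3 : (1 - 1 / Real.cosh x) / (Real.sinh x / Real.cosh x) =
      (Real.cosh x - 1) / Real.sinh x := by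
    field_simp
  rw [e3, div_eq_div_iff hs.ne' hc2.ne', e1, e2]
  ring

theorem key_alg {T q s c : ℝ} (hq : q ^ 2 = 1 - T ^ 2) (hsc : s ^ 2 + c ^ 2 = 1)
    (hD : 0 < q * c ^ 2 + s ^ 2) (hA : 0 < 1 - (T * c) ^ 2) :
    1 + 1 / (1 + ((1 - q) * (s * c) / (q * c ^ 2 + s ^ 2)) ^ 2) *
      (((1 - q) * (c * c + s * -s) * (q * c ^ 2 + s ^ 2) -
        (1 - q) * (s * c) * (q * (2 * c * -s) + 2 * s * c)) / (q * c ^ 2 + s ^ 2) ^ 2) =
      q / (1 - (T * c) ^ 2) := by
  have hA' : 1 - (T * c) ^ 2 = q ^ 2 * c ^ 2 + s ^ 2 := by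
    rw [mul_pow]
    have : T ^ 2 = 1 - q ^ 2 := by linarith
    rw [this]
    linear_combination (-1 : ℝ) * hsc
  have hE : (q * c ^ 2 + s ^ 2) ^ 2 + ((1 - q) * (s * c)) ^ 2 = q ^ 2 * c ^ 2 + s ^ 2 := by
    have : (q * c ^ 2 + s ^ 2) ^ 2 + ((1 - q) * (s * c)) ^ 2 =
        (q ^ 2 * c ^ 2 + s ^ 2) * (s ^ 2 + c ^ 2) := by ring
    rw [this, hsc, mul_one]
  have hE0 : 0 < q ^ 2 * c ^ 2 + s ^ 2 := by rw [← hA']; exact hA
  have e1 : 1 / (1 + ((1 - q) * (s * c) / (q * c ^ 2 + s ^ 2)) ^ 2) =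
      (q * c ^ 2 + s ^ 2) ^ 2 / (q ^ 2 * c ^ 2 + s ^ 2) := by
    rw [← hE, div_pow]
    have hD2 : (q * c ^ 2 + s ^ 2) ^ 2 ≠ 0 := pow_ne_zero 2 hD.ne'
    have h3 : (q * c ^ 2 + s ^ 2) ^ 2 + ((1 - q) * (s * c)) ^ 2 ≠ 0 := by
      rw [hE]; exact hE0.ne'
    have h4 : 1 + ((1 - q) * (s * c)) ^ 2 / (q * c ^ 2 + s ^ 2) ^ 2 ≠ 0 := by
      positivity
    rw [div_eq_div_iff h4 h3]
    field_simp
  rw [e1, hA', div_mul_div_comm, mul_comm ((q * c ^ 2 + s ^ 2) ^ 2),
    mul_div_mul_right _ _ (pow_ne_zero 2 hD.ne')]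
  rw [eq_div_iff hE0.ne', add_mul, div_mul_cancel₀ _ hE0.ne', one_mul]
  have : q ^ 2 * c ^ 2 + s ^ 2 + ((1 - q) * (c * c + s * -s) * (q * c ^ 2 + s ^ 2) -
      (1 - q) * (s * c) * (q * (2 * c * -s) + 2 * s * c)) =
      q ^ 2 * c ^ 2 + s ^ 2 + (1 - q) * (q * c ^ 2 - s ^ 2) * (s ^ 2 + c ^ 2) := by ring
  rw [this, hsc]
  linear_combination q * hsc

/-- The primitive of `cos θ artanh (T cos θ)`. -/
theorem hasDerivAt_prim {T q : ℝ} (hT0 : 0 < T) (hT1 : T < 1) (hq0 : 0 < q)
    (hq : q ^ 2 = 1 - T ^ 2) (t : ℝ) :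
    HasDerivAt (fun t : ℝ => Real.sin t * Real.artanh (T * Real.cos t) +
      (t - q * (t + Real.arctan ((1 - q) * (Real.sin t * Real.cos t) /
        (q * Real.cos t ^ 2 + Real.sin t ^ 2)))) / T)
      (Real.cos t * Real.artanh (T * Real.cos t)) t := by
  have hsc := Real.sin_sq_add_cos_sq t
  have hD : 0 < q * Real.cos t ^ 2 + Real.sin t ^ 2 := by
    rcases eq_or_ne (Real.cos t) 0 with h | h
    · rw [h] at hsc ⊢
      nlinarith
    · have : 0 < Real.cos t ^ 2 := by positivity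
      positivity
  have hc1 := Real.cos_le_one t
  have hc2 := Real.neg_one_le_cos t
  have hTc1 : T * Real.cos t < 1 := by nlinarith
  have hTc2 : -1 < T * Real.cos t := by nlinarith
  have hA : 0 < 1 - (T * Real.cos t) ^ 2 := by nlinarith
  have d1 := Real.hasDerivAt_sin t
  have d2 := Real.hasDerivAt_cos t
  have d3 : HasDerivAt (fun t : ℝ => Real.artanh (T * Real.cos t))
      (1 / (1 - (T * Real.cos t) ^ 2) * (T * -Real.sin t)) t :=
    HasDerivAt.comp (h₂ := Real.artanh) (h := fun t : ℝ => T * Real.cos t) t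
      (hasDerivAt_artanh hTc2 hTc1) (d2.const_mul T)
  have d4 : HasDerivAt (fun t : ℝ => Real.sin t * Real.artanh (T * Real.cos t))
      (Real.cos t * Real.artanh (T * Real.cos t) +
        Real.sin t * (1 / (1 - (T * Real.cos t) ^ 2) * (T * -Real.sin t))) t := d1.mul d3
  have dN : HasDerivAt (fun t : ℝ => (1 - q) * (Real.sin t * Real.cos t))
      ((1 - q) * (Real.cos t * Real.cos t + Real.sin t * -Real.sin t)) t :=
    (d1.mul d2).const_mul (1 - q)
  have dD : HasDerivAt (fun t : ℝ => q * Real.cos t ^ 2 + Real.sin t ^ 2)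
      (q * (2 * Real.cos t * -Real.sin t) + 2 * Real.sin t * Real.cos t) t := by
    have e1 : HasDerivAt (fun t : ℝ => q * Real.cos t ^ 2) (q * (2 * Real.cos t * -Real.sin t)) t := by
      have := (d2.pow 2).const_mul q
      simpa using this
    have e2 : HasDerivAt (fun t : ℝ => Real.sin t ^ 2) (2 * Real.sin t * Real.cos t) t := by
      have := d1.fun_pow 2
      simpa using this
    exact e1.add e2
  have dU : HasDerivAt (fun t : ℝ => Real.arctan ((1 - q) * (Real.sin t * Real.cos t) /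
        (q * Real.cos t ^ 2 + Real.sin t ^ 2))) _ t := (dN.div dD hD.ne').arctan
  have d5 : HasDerivAt (fun t : ℝ => (t - q * (t + Real.arctan ((1 - q) *
      (Real.sin t * Real.cos t) / (q * Real.cos t ^ 2 + Real.sin t ^ 2)))) / T) _ t :=
    (((hasDerivAt_id t).sub (((hasDerivAt_id t).add dU).const_mul q)).div_const T)
  have d6 := d4.add d5
  refine d6.congr_deriv ?_
  have key := key_alg hq hsc hD hA
  simp only [Pi.div_apply] at *
  rw [key]
  have hT : T ≠ 0 := hT0.ne'
  have hA' := hA.ne'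
  have h1 : q * (q / (1 - (T * Real.cos t) ^ 2)) = (1 - T ^ 2) / (1 - (T * Real.cos t) ^ 2) := by
    rw [← hq]
    ring
  rw [h1]
  have h2 : Real.sin t ^ 2 = 1 - Real.cos t ^ 2 := by linarith
  have h3 : Real.sin t * (1 / (1 - (T * Real.cos t) ^ 2) * (T * -Real.sin t)) =
      -(T * (1 - Real.cos t ^ 2) / (1 - (T * Real.cos t) ^ 2)) := by
    rw [← h2]
    ring
  rw [h3]
  have h4 : (1 - (1 - T ^ 2) / (1 - (T * Real.cos t) ^ 2)) / T =
      T * (1 - Real.cos t ^ 2) / (1 - (T * Real.cos t) ^ 2) := by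
    rw [div_eq_div_iff hT hA', sub_mul, div_mul_cancel₀ _ hA']
    ring
  rw [h4]
  ring

/-- (B): the integral over the directions. -/
theorem integral_fR {k R : ℝ} (hk : 0 ≤ k) (hR : 0 < R) :
    ∫ t in (-(Real.pi / 2))..(Real.pi / 2), Real.cos t * fR k R (Real.cos t) = C2 k R := by
  have hpi := Real.pi_pos
  have hcl : ∀ t ∈ uIcc (-(Real.pi / 2)) (Real.pi / 2), clip (Real.cos t) = Real.cos t := by
    intro t ht
    rw [uIcc_of_le (by linarith)] at ht
    exact clip_of_mem (Real.cos_nonneg_of_mem_Icc ht) (Real.cos_le_one t)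
  unfold C2 fR
  by_cases h : k = 0
  · simp only [if_pos h]
    have e : ∫ t in (-(Real.pi / 2))..(Real.pi / 2), Real.cos t * (R * clip (Real.cos t)) =
        ∫ t in (-(Real.pi / 2))..(Real.pi / 2), R * Real.cos t ^ 2 := by
      apply intervalIntegral.integral_congr
      intro t ht
      simp only
      rw [hcl t ht]
      ring
    rw [e, intervalIntegral.integral_const_mul, integral_cos_sq]
    simp
    ring
  · simp only [if_neg h]
    have hk' : 0 < k := lt_of_le_of_ne hk (Ne.symm h)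
    have hkR : 0 < k * R := mul_pos hk' hR
    set T := Real.tanh (k * R) with hT
    have hT0 : 0 < T := tanh_pos' hkR
    have hT1 : T < 1 := Real.tanh_lt_one _
    set q := 1 / Real.cosh (k * R) with hq
    have hc := Real.cosh_pos (k * R)
    have hq0 : 0 < q := by positivity
    have hqs : q ^ 2 = 1 - T ^ 2 := by
      rw [hq, hT, Real.tanh_eq_sinh_div_cosh]
      have := Real.cosh_sq (k * R)
      field_simp
      linarith
    have e : ∫ t in (-(Real.pi / 2))..(Real.pi / 2),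
        Real.cos t * (Real.artanh (T * clip (Real.cos t)) / k) =
        ∫ t in (-(Real.pi / 2))..(Real.pi / 2),
          Real.cos t * Real.artanh (T * Real.cos t) / k := by
      apply intervalIntegral.integral_congr
      intro t ht
      simp only
      rw [hcl t ht]
      ring
    rw [e, intervalIntegral.integral_div]
    have hcont : Continuous fun t : ℝ => Real.cos t * Real.artanh (T * Real.cos t) := by
      refine Real.continuous_cos.mul ?_
      rw [continuous_iff_continuousAt]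
      intro t
      have hc1 := Real.cos_le_one t
      have hc2 := Real.neg_one_le_cos t
      have h1 := (hasDerivAt_artanh (x := T * Real.cos t) (by nlinarith) (by nlinarith)).continuousAt
      exact ContinuousAt.comp (g := Real.artanh) (f := fun t => T * Real.cos t) h1
        (continuous_const.mul Real.continuous_cos).continuousAt
    rw [intervalIntegral.integral_eq_sub_of_hasDerivAt
      (fun t _ => hasDerivAt_prim hT0 hT1 hq0 hqs t) (hcont.intervalIntegrable _ _)]
    simp only [Real.cos_neg, Real.cos_pi_div_two, Real.sin_neg, Real.sin_pi_div_two, mul_zero,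
      Real.artanh_zero, zero_div, Real.arctan_zero, add_zero, zero_add]
    have h4 := tanh_half hkR
    rw [← hq, ← hT] at h4
    rw [← h4]
    field_simp
    ring

end Vale.Agent.P219.N2
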