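import Vale.Agent.P219.N2.Real2

/-! # P219, dimension two: the double integral of `gg` -/

open MeasureTheory Set Metric
open scoped ENNReal ContDiff

namespace Vale.Agent.P219.N2

open Vale.Agent.P219.TP Vale.Agent.P219.TPH

theorem inner_clip {e : E 2} (he : ‖e‖ = 1) (u : sphere (0 : E 2) 1) :
    0 ≤ max 0 (inner ℝ e (u : E 2)) ∧ max 0 (inner ℝ e (u : E 2)) ≤ 1 := by
  refine ⟨le_max_left _ _, max_le zero_le_one ?_⟩
  have h := real_inner_le_norm e (u : E 2)
  have hu : ‖(u : E 2)‖ = 1 := by simp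
  rwa [he, hu, one_mul] at h

/-- The integral of the positive part over all directions. -/
theorem double_gg {k R : ℝ} (hk : 0 ≤ k) (hR : 0 < R) {e : E 2} (he : ‖e‖ = 1) :
    ∫⁻ u : sphere (0 : E 2) 1, (∫⁻ r in Ioi (0 : ℝ),
      ENNReal.ofReal (gg k R (max 0 (inner ℝ e (u : E 2))) r))
      ∂((volume : Measure (E 2)).toSphere) = ENNReal.ofReal (2 * C2 k R) := by
  have h1 : ∀ u : sphere (0 : E 2) 1, ∫⁻ r in Ioi (0 : ℝ),
      ENNReal.ofReal (gg k R (max 0 (inner ℝ e (u : E 2))) r) =
      2 * ENNReal.ofReal (max 0 (inner ℝ e (u : E 2)) *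
        fR k R (max 0 (inner ℝ e (u : E 2)))) := by
    intro u
    have hc := inner_clip he u
    rw [lintegral_gg hk hR hc.1 hc.2, ENNReal.ofReal_mul (by norm_num)]
    norm_num
  simp only [h1]
  rw [lintegral_const_mul', sphere_fR_lintegral hk hR he, ENNReal.ofReal_mul (by norm_num)]
  · norm_num
  · norm_num

/-- `gg` is positive exactly before the half chord. -/
theorem gg_pos_iff {k R s : ℝ} (hk : 0 ≤ k) (hR : 0 < R) (h0 : 0 ≤ s) (h1 : s ≤ 1) (r : ℝ) :
    0 < gg k R s r ↔ r < 2 * fR k R s := by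
  rw [gg_eq hk hR h0 h1]
  have hc : ∀ x, 0 < cs k x := fun x => zero_lt_one.trans_le (one_le_cs _ _)
  have a1 := ct_pos hk hR
  have a2 := hc (r / 2)
  have a3 := hc (fR k R s)
  have a4 : 0 < 2 * cs k (r / 2) := by positivity
  have a5 : 0 < ct k R / cs k (fR k R s) := by positivity
  rw [mul_pos_iff_of_pos_left a4, mul_pos_iff_of_pos_left a5]
  have h2 : 0 < sn k (fR k R s - r / 2) ↔ sn k 0 < sn k (fR k R s - r / 2) := by rw [sn_zero]
  rw [h2, (sn_strictMono hk).lt_iff_lt]
  constructor <;> intro h <;> linarith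

/-- The pointwise identity of (S1); `j` is the Jacobian. -/
theorem point_id (k R s j r E : ℝ) :
    s * (k * j + 1 + E) + ((ct k R - s * k) * (j - sn k r) +
      (ct k R * sn k r - s * (1 + k * sn k r + E))) = ct k R * j := by
  ring

/-- `k sn + exp (-k r) = cs`. -/
theorem exp_eq (k r : ℝ) : k * sn k r + Real.exp (-(k * r)) = cs k r := by
  rw [h1_sinh, cs, Real.sinh_eq, Real.cosh_eq]
  ring

/-- (S1) with the deficit: on the superlevel set. -/
theorem point_eq (k R s j r : ℝ) :
    s * (k * j + 1 + Real.exp (-(k * r))) +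
      ((ct k R - s * k) * (j - sn k r) + (max 0 (gg k R s r) - gg k R s r)) =
      ct k R * j + max 0 (gg k R s r) := by
  have h := exp_eq k r
  unfold gg
  have e : Real.exp (-(k * r)) = cs k r - k * sn k r := by linarith
  rw [e]
  ring

/-- The chord condition: in the model domain of radius `R` through the point with inner normal `N`.
`gg = 0` iff the classical relation. -/
theorem gg_eq_zero_iff {k R s : ℝ} (hk : 0 ≤ k) (hR : 0 < R) (h0 : 0 ≤ s) (h1 : s ≤ 1) (r : ℝ) :
    gg k R s r = 0 ↔ r = 2 * fR k R s := by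
  constructor
  · intro h
    by_contra hne
    rcases lt_or_gt_of_ne hne with hlt | hlt
    · exact absurd h ((gg_pos_iff hk hR h0 h1 r).2 hlt).ne'
    · rw [gg_eq hk hR h0 h1] at h
      have hc : ∀ x, 0 < cs k x := fun x => zero_lt_one.trans_le (one_le_cs _ _)
      have a1 := ct_pos hk hR
      have a2 := hc (r / 2)
      have a3 := hc (fR k R s)
      have h2 : sn k (fR k R s - r / 2) < 0 := by
        have := sn_strictMono hk (show fR k R s - r / 2 < 0 by linarith)
        rwa [sn_zero] at this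
      have h3 : 2 * cs k (r / 2) * (ct k R / cs k (fR k R s)) * sn k (fR k R s - r / 2) < 0 :=
        mul_neg_of_pos_of_neg (by positivity) h2
      have h4 : 2 * cs k (r / 2) * (ct k R / cs k (fR k R s) * sn k (fR k R s - r / 2)) =
        2 * cs k (r / 2) * (ct k R / cs k (fR k R s)) * sn k (fR k R s - r / 2) := by ring
      linarith
  · rintro rfl
    rw [gg_eq hk hR h0 h1, mul_div_cancel_left₀ _ (two_ne_zero), sub_self, sn_zero]
    ring

/-- The chord relation in the form used in `TPH.ModelPair`: `s = co/r`. -/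
theorem chord_rel {k R s r : ℝ} (hk : 0 ≤ k) (hR : 0 < R)
    (h : gg k R s r = 0) : sn k (r / 2) * cs k R = s * (cs k (r / 2) * sn k R) := by
  have hsR := sn_pos hk hR
  have hc : 0 < cs k (r / 2) := zero_lt_one.trans_le (one_le_cs _ _)
  unfold gg ct at h
  rw [cs_two k r, sn_two k r] at h
  have h2 : cs k (r / 2) * (s * (cs k (r / 2) * sn k R) - sn k (r / 2) * cs k R) = 0 := by
    have e : cs k (r / 2) * (s * (cs k (r / 2) * sn k R) - sn k (r / 2) * cs k R) =
        sn k R / 2 * (s * (2 * cs k (r / 2) ^ 2) -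
          cs k R / sn k R * (2 * (sn k (r / 2) * cs k (r / 2)))) := by
      field_simp
    rw [e, h, mul_zero]
  rcases mul_eq_zero.1 h2 with h3 | h3
  · exact absurd h3 hc.ne'
  · linarith

end Vale.Agent.P219.N2
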