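import Vale.Agent.P219.N2.RigLim
import Vale.Agent.P219.N2.Real2

/-! # `n = 2`, equality case: the constant of the model -/

open MeasureTheory Set Metric Filter Topology
open scoped ENNReal ContDiff

noncomputable section

namespace Vale.Agent.P219.N2

open Vale.Agent.P219.TP Vale.Agent.P219.TPH

theorem rCC {k R : ℝ} (hk : 0 ≤ k) (hR : 0 < R) {N : E 2} (hN : ‖N‖ = 1) :
    ∫⁻ v, ENNReal.ofReal (‖v‖⁻¹ * max 0 (rB k (ct k R) N v)) ≤ ENNReal.ofReal (2 * C2 k R) := by
  have hm : Measurable fun v => ENNReal.ofReal (‖v‖⁻¹ * max 0 (rB k (ct k R) N v)) :=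
    (measurable_norm.inv.mul (measurable_const.max (rmeas_rB N))).ennreal_ofReal
  rw [polar (n := 2) (by norm_num) hm]
  have h1 : ∀ u : sphere (0 : E 2) 1, ∫⁻ r in Ioi (0 : ℝ), ENNReal.ofReal (r ^ (2 - 1)) *
      ENNReal.ofReal (‖r • (u : E 2)‖⁻¹ * max 0 (rB k (ct k R) N (r • (u : E 2)))) =
      ENNReal.ofReal 2 * ENNReal.ofReal (max 0 (inner ℝ N (u : E 2)) *
        fR k R (max 0 (inner ℝ N (u : E 2)))) := by
    intro u
    have hu : ‖(u : E 2)‖ = 1 := by simp
    have hs0 : 0 ≤ max 0 (inner ℝ N (u : E 2)) := le_max_left _ _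
    have hs1 : max 0 (inner ℝ N (u : E 2)) ≤ 1 := by
      refine max_le zero_le_one ((real_inner_le_norm _ _).trans ?_)
      rw [hN, hu, one_mul]
    rw [← ENNReal.ofReal_mul zero_le_two, ← lintegral_gg hk hR hs0 hs1]
    refine setLIntegral_congr_fun measurableSet_Ioi fun r hr => ?_
    have hr0 : (0 : ℝ) < r := hr
    have hn1 : ‖r • (u : E 2)‖ = r := by
      rw [norm_smul, hu, mul_one, Real.norm_eq_abs, abs_of_pos hr0]
    have hrs : rs N (r • (u : E 2)) = max 0 (inner ℝ N (u : E 2)) := by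
      unfold rs
      rw [hn1, smul_smul, inv_mul_cancel₀ hr0.ne', one_smul]
    have hB : rB k (ct k R) N (r • (u : E 2)) = gg k R (max 0 (inner ℝ N (u : E 2))) r := by
      unfold rB gg
      rw [hrs, hn1]
    show ENNReal.ofReal (r ^ (2 - 1)) * ENNReal.ofReal (‖r • (u : E 2)‖⁻¹ *
      max 0 (rB k (ct k R) N (r • (u : E 2)))) = _
    rw [hB, hn1, ← ENNReal.ofReal_mul (by positivity)]
    simp only [Nat.add_one_sub_one, pow_one]
    rw [← mul_assoc, mul_inv_cancel₀ hr0.ne', one_mul]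
    rcases le_total 0 (gg k R (max 0 (inner ℝ N (u : E 2))) r) with h | h
    · rw [max_eq_right h]
    · rw [max_eq_left h, ENNReal.ofReal_zero, ENNReal.ofReal_of_nonpos h]
  simp only [h1]
  rw [lintegral_const_mul' _ _ ENNReal.ofReal_ne_top, sphere_fR_lintegral hk hR hN,
    ← ENNReal.ofReal_mul zero_le_two]

/-- The balance of the model. -/
theorem rbal {k R : ℝ} (hk : 0 ≤ k) (hR : 0 < R) :
    AR 2 k R * (ct k R * VR 2 k R + 2 * C2 k R) ≤
      2 * sig 2 * VR 2 k R + k ^ 2 * VR 2 k R ^ 2 := by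
  rw [model_id hk hR, sig_two]
  have : 4 * Real.pi * VR 2 k R = 2 * (2 * Real.pi) * VR 2 k R := by ring
  rw [this]

end Vale.Agent.P219.N2
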