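import Vale.Agent.P219.N2.Pair
import Vale.Agent.P219.TPH.ModelH

/-! # `n = 2`, equality case: the local deficit -/

open MeasureTheory Set Metric Filter Topology
open scoped ENNReal ContDiff

noncomputable section

namespace Vale.Agent.P219.N2

open Vale.Agent.P219.TP Vale.Agent.P219.TPH

/-- The weight. -/
def rW (G : Geo 2) (k : ℝ) (y v : E 2) : ℝ :=
  k * (‖v‖ * (G.T y v).det) + 1 + Real.exp (-(k * ‖v‖))

/-- The positive part of the cosine. -/
def rs (N v : E 2) : ℝ := max 0 (inner ℝ N (‖v‖⁻¹ • v))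

/-- The bracket. -/
def rB (k ct : ℝ) (N v : E 2) : ℝ := rs N v * (1 + cs k ‖v‖) - ct * sn k ‖v‖

/-- The deficit inside. -/
def rI (G : Geo 2) (k ct : ℝ) (N y v : E 2) : ℝ :=
  ct * (‖v‖ * (G.T y v).det) + max 0 (rB k ct N v) - rs N v * rW G k y v

/-- The deficit. -/
def rD (G : Geo 2) (k ct : ℝ) (h : E 2 → ℝ) (N y v : E 2) : ℝ :=
  ‖v‖⁻¹ * (if h y < h (G.ex y v) then rI G k ct N y v else max 0 (rB k ct N v))

/-- The deficit at a point. -/
def rDD (G : Geo 2) (k ct : ℝ) (h : E 2 → ℝ) (N y : E 2) : ℝ≥0∞ :=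
  ∫⁻ v, ENNReal.ofReal (rD G k ct h N y v)

variable {G : Geo 2} {k ct : ℝ}

theorem rs_nonneg (N v : E 2) : 0 ≤ rs N v := le_max_left _ _

theorem rs_le {N : E 2} (hN : ‖N‖ = 1) (v : E 2) : rs N v ≤ 1 := by
  refine max_le zero_le_one ?_
  refine (real_inner_le_norm _ _).trans ?_
  rw [hN, one_mul, norm_smul, norm_inv, norm_norm]
  exact inv_mul_le_one

theorem rI_eq (N y v : E 2) : rI G k ct N y v =
    (ct - rs N v * k) * (‖v‖ * (G.T y v).det - sn k ‖v‖) +
      (max 0 (rB k ct N v) - rB k ct N v) := by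
  have h := cs_sub_sn k ‖v‖
  unfold rI rW
  rw [← h]
  unfold rB
  ring

theorem jv_ge (hk : 0 ≤ k) (hG : MonoSn G k) (y : E 2) {v : E 2} (hv : v ≠ 0) :
    sn k ‖v‖ ≤ ‖v‖ * (G.T y v).det := by
  have h := sn_le_JM (n := 2) (by norm_num) hk hG (x := y) hv
  rw [abs_of_pos (det_T_pos G y _)] at h
  simpa using h

theorem rI_nonneg (hk : 0 ≤ k) (hG : MonoSn G k) (hct : k ≤ ct) {N : E 2} (hN : ‖N‖ = 1)
    (y : E 2) {v : E 2} (hv : v ≠ 0) : 0 ≤ rI G k ct N y v := by
  rw [rI_eq]
  have h1 := jv_ge hk hG y hv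
  have h2 : rs N v * k ≤ 1 * k := mul_le_mul_of_nonneg_right (rs_le hN v) hk
  have h3 : rB k ct N v ≤ max 0 (rB k ct N v) := le_max_right _ _
  have h4 : 0 ≤ (ct - rs N v * k) * (‖v‖ * (G.T y v).det - sn k ‖v‖) :=
    mul_nonneg (by linarith) (by linarith)
  linarith

theorem rW_nonneg (hk : 0 ≤ k) (y v : E 2) : 0 ≤ rW G k y v := by
  have h1 := (det_T_pos G y v).le
  have h2 := (Real.exp_pos (-(k * ‖v‖))).le
  unfold rW
  positivity

/-! ### Measurability -/

theorem rmeas_rs (N : E 2) : Measurable (rs N) := by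
  unfold rs
  exact measurable_const.max (measurable_const.inner (measurable_norm.inv.smul measurable_id))

theorem rmeas_rB (N : E 2) : Measurable (rB k ct N) := by
  unfold rB
  have h1 : Continuous fun v : E 2 => 1 + cs k ‖v‖ :=
    continuous_const.add ((contDiff_cs k).continuous.comp continuous_norm)
  have h2 : Continuous fun v : E 2 => ct * sn k ‖v‖ :=
    continuous_const.mul ((contDiff_sn k).continuous.comp continuous_norm)
  exact ((rmeas_rs N).mul h1.measurable).sub h2.measurable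

theorem rcont_det (y : E 2) : Continuous fun v : E 2 => (G.T y v).det :=
  (detExp_smooth G).continuous.comp (continuous_const.prodMk continuous_id)

theorem rcont_ex (y : E 2) : Continuous fun v : E 2 => G.ex y v :=
  G.ex_smooth.continuous.comp (continuous_const.prodMk continuous_id)

theorem rmeas_rW (y : E 2) : Measurable (rW G k y) := by
  unfold rW
  have h := rcont_det (G := G) y
  exact (by fun_prop : Continuous fun v : E 2 =>
    k * (‖v‖ * (G.T y v).det) + 1 + Real.exp (-(k * ‖v‖))).measurable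

theorem rmeas_rI (N y : E 2) : Measurable (rI G k ct N y) := by
  unfold rI
  have h := rcont_det (G := G) y
  have h1 : Measurable fun v : E 2 => ct * (‖v‖ * (G.T y v).det) :=
    (by fun_prop : Continuous fun v : E 2 => ct * (‖v‖ * (G.T y v).det)).measurable
  exact (h1.add (measurable_const.max (rmeas_rB N))).sub ((rmeas_rs N).mul (rmeas_rW y))

theorem rmeas_set {h : E 2 → ℝ} (hh : Continuous h) (y : E 2) :
    MeasurableSet {v | h y < h (G.ex y v)} :=
  (isOpen_lt continuous_const (hh.comp (rcont_ex y))).measurableSet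

theorem rmeas_rD {h : E 2 → ℝ} (hh : Continuous h) (N y : E 2) : Measurable (rD G k ct h N y) := by
  unfold rD
  exact measurable_norm.inv.mul (Measurable.ite (rmeas_set hh y) (rmeas_rI N y)
    (measurable_const.max (rmeas_rB N)))

/-! ### The pointwise upper bound -/

theorem rD_add (hk : 0 ≤ k) (hG : MonoSn G k) (hct : k ≤ ct) {h : E 2 → ℝ} {N : E 2}
    (hN : ‖N‖ = 1) (y : E 2) {v : E 2} (hv : v ≠ 0) :
    ENNReal.ofReal (rD G k ct h N y v) +
        ENNReal.ofReal (if h y < h (G.ex y v) then ‖v‖⁻¹ * (rs N v * rW G k y v) else 0) =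
      ENNReal.ofReal ct * (ENNReal.ofReal |(G.T y v).det| *
        {x | h y < h x}.indicator 1 (G.ex y v)) +
        ENNReal.ofReal (‖v‖⁻¹ * max 0 (rB k ct N v)) := by
  have hv0 : 0 < ‖v‖ := norm_pos_iff.2 hv
  have hct0 : 0 ≤ ct := hk.trans hct
  have hI := rI_nonneg hk hG hct hN y hv
  have hW := rW_nonneg (G := G) hk y v
  have hs := rs_nonneg N v
  have hB : 0 ≤ max 0 (rB k ct N v) := le_max_left _ _
  have hdet := (det_T_pos G y v).le
  unfold rD
  by_cases hlt : h y < h (G.ex y v)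
  · have hmem : G.ex y v ∈ {x | h y < h x} := hlt
    rw [if_pos hlt, if_pos hlt, indicator_of_mem hmem, Pi.one_apply, mul_one,
      ← ENNReal.ofReal_add (by positivity) (by positivity), ← ENNReal.ofReal_mul hct0,
      ← ENNReal.ofReal_add (by positivity) (by positivity), abs_of_nonneg hdet]
    congr 1
    unfold rI
    field_simp
    ring
  · have hmem : G.ex y v ∉ {x | h y < h x} := hlt
    rw [if_neg hlt, if_neg hlt, indicator_of_notMem hmem, mul_zero, mul_zero, zero_add,
      ENNReal.ofReal_zero, add_zero]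

/-- The integral of the weight, at one point. -/
theorem rDD_add (hk : 0 ≤ k) (hG : MonoSn G k) (hct : k ≤ ct) {h : E 2 → ℝ}
    (hh : ContDiff ℝ 1 h) {CC : ℝ}
    (hCC : ∀ N : E 2, ‖N‖ = 1 →
      ∫⁻ v, ENNReal.ofReal (‖v‖⁻¹ * max 0 (rB k ct N v)) ≤ ENNReal.ofReal CC)
    {N : E 2 → E 2} (hN : ∀ y, G.D h y = ‖G.D h y‖ • N y) (h0 : ∀ x, 0 ≤ h x) (y : E 2) :
    ‖G.D h y‖ₑ * rDD G k ct h (N y) y + ∫⁻ v, Fq G k h (y, v) ≤
      ‖G.D h y‖ₑ * (ENNReal.ofReal ct * G.vol {x | 0 < h x} + ENNReal.ofReal CC) := by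
  by_cases hy : G.D h y = 0
  · have hF : ∀ v, Fq G k h (y, v) = 0 := by
      intro v
      unfold Fq
      simp only [hy, inner_zero_left, max_self, zero_mul, mul_zero, ite_self,
        ENNReal.ofReal_zero]
    simp only [hF, hy, enorm_zero, zero_mul, lintegral_zero, add_zero, le_refl]
  have hy0 : 0 < ‖G.D h y‖ := norm_pos_iff.2 hy
  have hN1 : ‖N y‖ = 1 := by
    have h1 := congrArg norm (hN y)
    rw [norm_smul, norm_norm] at h1
    have h2 : ‖G.D h y‖ * ‖N y‖ = ‖G.D h y‖ * 1 := by rw [← h1, mul_one]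
    exact mul_left_cancel₀ hy0.ne' h2
  have hF : ∀ v, Fq G k h (y, v) = ‖G.D h y‖ₑ *
      ENNReal.ofReal (if h y < h (G.ex y v) then ‖v‖⁻¹ * (rs (N y) v * rW G k y v) else 0) := by
    intro v
    have e1 : max 0 (inner ℝ (G.D h y) (‖v‖⁻¹ • v)) = ‖G.D h y‖ * rs (N y) v := by
      rw [hN y, real_inner_smul_left, norm_smul, norm_norm, hN1, mul_one]
      unfold rs
      rw [mul_max_of_nonneg _ _ (norm_nonneg _), mul_zero]
    unfold Fq
    simp only [e1]
    rw [← ofReal_norm, ← ENNReal.ofReal_mul (norm_nonneg _)]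
    congr 1
    split_ifs
    · unfold rW
      ring
    · rw [mul_zero]
  simp only [hF]
  have hm : Measurable fun v => ENNReal.ofReal
      (if h y < h (G.ex y v) then ‖v‖⁻¹ * (rs (N y) v * rW G k y v) else 0) :=
    (Measurable.ite (rmeas_set hh.continuous y) (measurable_norm.inv.mul
      ((rmeas_rs _).mul (rmeas_rW y))) measurable_const).ennreal_ofReal
  rw [lintegral_const_mul _ hm, ← mul_add]
  refine mul_le_mul_right ?_ _
  unfold rDD
  rw [← lintegral_add_right _ hm]
  have hae : ∀ᵐ v : E 2, v ≠ 0 := by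
    rw [ae_iff]
    simp only [ne_eq, not_not]
    exact measure_singleton (0 : E 2)
  have hcg : ∫⁻ v, (ENNReal.ofReal (rD G k ct h (N y) y v) +
        ENNReal.ofReal (if h y < h (G.ex y v) then ‖v‖⁻¹ * (rs (N y) v * rW G k y v) else 0)) =
      ∫⁻ v, (ENNReal.ofReal ct * (ENNReal.ofReal |(G.T y v).det| *
        {x | h y < h x}.indicator 1 (G.ex y v)) +
        ENNReal.ofReal (‖v‖⁻¹ * max 0 (rB k ct (N y) v))) := by
    refine lintegral_congr_ae ?_
    filter_upwards [hae] with v hv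
    exact rD_add hk hG hct hN1 y hv
  rw [hcg]
  have hset : MeasurableSet {x | h y < h x} :=
    (isOpen_lt continuous_const hh.continuous).measurableSet
  have hm2 : Measurable fun v => ENNReal.ofReal (‖v‖⁻¹ * max 0 (rB k ct (N y) v)) :=
    (measurable_norm.inv.mul (measurable_const.max (rmeas_rB _))).ennreal_ofReal
  rw [lintegral_add_right _ hm2]
  refine add_le_add ?_ (hCC _ hN1)
  rw [lintegral_const_mul' _ _ ENNReal.ofReal_ne_top,
    ← G.lintegral_vol_ex y (measurable_one.indicator hset), lintegral_indicator_one hset]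
  exact mul_le_mul_right (measure_mono fun x hx => (h0 y).trans_lt hx) _

end Vale.Agent.P219.N2
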