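import Vale.Agent.P219.N2.RigSum

/-! # `n = 2`, equality case: the deficit vanishes at every boundary point -/

open MeasureTheory Set Metric Filter Topology
open scoped ENNReal ContDiff

noncomputable section

namespace Vale.Agent.P219.N2

open Vale.Agent.P219.TP Vale.Agent.P219.TPH

variable {G : Geo 2} {k ct : ℝ}

/-! ### Continuity in all variables -/

theorem rcont_rs {X : Type*} [TopologicalSpace X] {a : X} {N v : X → E 2}
    (hN : ContinuousAt N a) (hv : ContinuousAt v a) (h0 : v a ≠ 0) :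
    ContinuousAt (fun z => rs (N z) (v z)) a := by
  unfold rs
  exact continuousAt_const.max
    (hN.inner ((hv.norm.inv₀ (norm_ne_zero_iff.2 h0)).smul hv))

theorem rcont_rB {X : Type*} [TopologicalSpace X] {a : X} {N v : X → E 2}
    (hN : ContinuousAt N a) (hv : ContinuousAt v a) (h0 : v a ≠ 0) :
    ContinuousAt (fun z => rB k ct (N z) (v z)) a := by
  unfold rB
  have h1 : ContinuousAt (fun z => cs k ‖v z‖) a :=
    ((contDiff_cs k).continuous.continuousAt).comp hv.norm
  have h2 : ContinuousAt (fun z => sn k ‖v z‖) a :=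
    ((contDiff_sn k).continuous.continuousAt).comp hv.norm
  exact ((rcont_rs hN hv h0).mul (continuousAt_const.add h1)).sub (continuousAt_const.mul h2)

theorem rcont_rI {X : Type*} [TopologicalSpace X] {a : X} {N y v : X → E 2}
    (hN : ContinuousAt N a) (hy : ContinuousAt y a) (hv : ContinuousAt v a) (h0 : v a ≠ 0) :
    ContinuousAt (fun z => rI G k ct (N z) (y z) (v z)) a := by
  have hdet : ContinuousAt (fun z => (G.T (y z) (v z)).det) a :=
    ((detExp_smooth G).continuous.continuousAt).comp (hy.prodMk hv)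
  have h1 : ContinuousAt (fun z => ‖v z‖ * (G.T (y z) (v z)).det) a := hv.norm.mul hdet
  unfold rI rW
  refine ((continuousAt_const.mul h1).add (continuousAt_const.max (rcont_rB hN hv h0))).sub
    ((rcont_rs hN hv h0).mul (((continuousAt_const.mul h1).add continuousAt_const).add ?_))
  exact Real.continuous_exp.continuousAt.comp ((continuousAt_const.mul hv.norm).neg)

/-- At a boundary point. -/
structure RPt (G : Geo 2) (k ct : ℝ) (Ω : Set (E 2)) (N p : E 2) : Prop where
  inside : ∀ v : E 2, v ≠ 0 → G.ex p v ∈ Ω → rI G k ct N p v = 0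
  outside : ∀ v : E 2, v ≠ 0 → G.ex p v ∉ closure Ω → max 0 (rB k ct N v) = 0

/-- From almost everywhere to everywhere. -/
theorem rkey {P : E 2 → Prop} (hae : ∀ᵐ v : E 2, P v) {g : E 2 → ℝ} {O : Set (E 2)}
    (hO : IsOpen O) (hgc : ∀ v ∈ O, ContinuousAt g v) (hg : ∀ v ∈ O, P v → g v = 0) :
    ∀ v ∈ O, g v = 0 := by
  have hae2 : g =ᵐ[volume.restrict O] fun _ => 0 := by
    rw [Filter.EventuallyEq, ae_restrict_iff' hO.measurableSet]
    filter_upwards [hae] with v hv hvO
    exact hg v hvO hv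
  exact Measure.eqOn_open_of_ae_eq hae2 hO (fun v hv => (hgc v hv).continuousWithinAt)
    continuousOn_const

theorem rzero {a b : ℝ} (hb : 0 < b) (ha : 0 ≤ a) {f : ℕ → ℝ≥0∞} {g : ℕ → ℝ}
    (hg : Tendsto g atTop (𝓝 a)) (hf : ∀ᶠ m in atTop, ENNReal.ofReal (b * g m) = f m)
    (hl : liminf f atTop = 0) : a = 0 := by
  have h2 : Tendsto f atTop (𝓝 (ENNReal.ofReal (b * a))) :=
    Tendsto.congr' hf ((ENNReal.continuous_ofReal.tendsto _).comp (hg.const_mul b))
  rw [h2.liminf_eq, ENNReal.ofReal_eq_zero] at hl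
  by_contra hne
  have : 0 < b * a := mul_pos hb (lt_of_le_of_ne ha (Ne.symm hne))
  linarith

theorem rlt_one {h : E 2 → ℝ} (h1 : ∀ x, h x ≤ 1) {y : E 2} (hD : G.D h y ≠ 0) : h y < 1 := by
  refine lt_of_le_of_ne (h1 _) fun heq => hD ?_
  have hmax : IsLocalMax h y :=
    Eventually.of_forall fun x => by
      show h x ≤ h y
      rw [heq]
      exact h1 _
  unfold TP.Geo.D
  rw [hmax.fderiv_eq_zero, ContinuousLinearMap.zero_comp, map_zero]

/-- Fatou's lemma. -/
theorem rliminf {f : ℕ → E 2 → ℝ≥0∞} (hfm : ∀ m, Measurable (f m))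
    (hdd : ∀ m : ℕ, ∫⁻ v, f m v ≤ ENNReal.ofReal (1 / ((m : ℝ) + 1))) :
    ∀ᵐ v : E 2, liminf (fun m => f m v) atTop = 0 := by
  have ht : Tendsto (fun m => ∫⁻ v, f m v) atTop (𝓝 0) := by
    have h2 : Tendsto (fun m : ℕ => ENNReal.ofReal (1 / ((m : ℝ) + 1))) atTop (𝓝 0) := by
      have := (ENNReal.continuous_ofReal.tendsto 0).comp
        (tendsto_one_div_add_atTop_nhds_zero_nat (𝕜 := ℝ))
      rwa [ENNReal.ofReal_zero] at this
    exact tendsto_of_tendsto_of_tendsto_of_le_of_le tendsto_const_nhds h2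
      (fun m => bot_le) hdd
  have h3 := lintegral_liminf_le (u := (atTop : Filter ℕ)) (μ := (volume : Measure (E 2))) hfm
  rw [ht.liminf_eq] at h3
  exact (lintegral_eq_zero_iff (Measurable.liminf hfm)).1 (le_antisymm h3 bot_le)

/-- Fatou's lemma at a point `p`. -/
theorem rfatou (hk : 0 ≤ k) (hG : MonoSn G k) (hct : k ≤ ct) {Ω : Set (E 2)} (hΩ : IsOpen Ω)
    {h : ℕ → E 2 → ℝ} (hh : ∀ j, ContDiff ℝ 1 (h j))
    (h0 : ∀ j x, 0 ≤ h j x) (h1 : ∀ j x, h j x ≤ 1)
    (hin : ∀ x ∈ Ω, ∀ᶠ z in atTop ×ˢ 𝓝 x, h z.1 z.2 = 1)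
    (hout : ∀ x ∉ closure Ω, ∀ᶠ z in atTop ×ˢ 𝓝 x, h z.1 z.2 = 0)
    {N : E 2 → E 2} {p : E 2} (hNp : ContinuousAt N p) (hN1 : ‖N p‖ = 1)
    {j : ℕ → ℕ} (hj : Tendsto j atTop atTop) {y : ℕ → E 2} (hy : Tendsto y atTop (𝓝 p))
    (hD : ∀ m, G.D (h (j m)) (y m) ≠ 0)
    (hdd : ∀ m : ℕ, rDD G k ct (h (j m)) (N (y m)) (y m) ≤ ENNReal.ofReal (1 / ((m : ℝ) + 1))) :
    RPt G k ct Ω (N p) p := by
  have hyN : Tendsto (fun m => N (y m)) atTop (𝓝 (N p)) := hNp.tendsto.comp hy
  have hlt : ∀ m, h (j m) (y m) < 1 := fun m => rlt_one (h1 _) (hD m)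
  have hae := rliminf (f := fun m v => ENNReal.ofReal (rD G k ct (h (j m)) (N (y m)) (y m) v))
    (fun m => (rmeas_rD (hh _).continuous _ _).ennreal_ofReal) hdd
  have hex : ∀ v : E 2, Tendsto (fun m => G.ex (y m) v) atTop (𝓝 (G.ex p v)) := by
    intro v
    have hc : Continuous fun x : E 2 => G.ex x v :=
      G.ex_smooth.continuous.comp (continuous_id.prodMk continuous_const)
    exact (hc.tendsto p).comp hy
  have hne : IsOpen {v : E 2 | v ≠ 0} := isOpen_ne
  constructor
  · intro v hv hmem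
    refine rkey hae (g := fun v => rI G k ct (N p) p v)
      (O := {v | v ≠ 0} ∩ (fun v => G.ex p v) ⁻¹' Ω) (hne.inter (hΩ.preimage (rcont_ex p)))
      (fun v hv => rcont_rI continuousAt_const continuousAt_const continuousAt_id hv.1)
      (fun v hv hl => ?_) v ⟨hv, hmem⟩
    have hc : ContinuousAt (fun z : E 2 × E 2 => rI G k ct z.1 z.2 v) (N p, p) :=
      rcont_rI continuousAt_fst continuousAt_snd continuousAt_const hv.1
    refine rzero (inv_pos.2 (norm_pos_iff.2 hv.1)) (rI_nonneg (ct := ct) hk hG hct hN1 p hv.1)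
      (hc.tendsto.comp (hyN.prodMk_nhds hy)) ?_ hl
    filter_upwards [(hj.prodMk (hex v)).eventually (hin _ hv.2)] with m hm
    have hm' : h (j m) (G.ex (y m) v) = 1 := hm
    unfold rD
    rw [if_pos (by rw [hm']; exact hlt m)]
    rfl
  · intro v hv hmem
    refine rkey hae (g := fun v => max 0 (rB k ct (N p) v))
      (O := {v | v ≠ 0} ∩ (fun v => G.ex p v) ⁻¹' (closure Ω)ᶜ)
      (hne.inter (isClosed_closure.isOpen_compl.preimage (rcont_ex p)))
      (fun v hv => continuousAt_const.max (rcont_rB continuousAt_const continuousAt_id hv.1))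
      (fun v hv hl => ?_) v ⟨hv, hmem⟩
    have hc : ContinuousAt (fun z : E 2 => max 0 (rB k ct z v)) (N p) :=
      continuousAt_const.max (rcont_rB continuousAt_id continuousAt_const hv.1)
    refine rzero (inv_pos.2 (norm_pos_iff.2 hv.1)) (le_max_left _ _)
      (hc.tendsto.comp hyN) ?_ hl
    filter_upwards [(hj.prodMk (hex v)).eventually (hout _ hv.2)] with m hm
    have hm' : h (j m) (G.ex (y m) v) = 0 := hm
    unfold rD
    rw [if_neg (by rw [hm']; exact not_lt.2 (h0 _ _))]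
    rfl

/-- The relations at a second boundary point. -/
theorem RPt.pair (hk : 0 ≤ k) (hG : MonoSn G k) (hct : k < ct) {Ω : Set (E 2)} {N p : E 2}
    (hN : ‖N‖ = 1) (hR : RPt G k ct Ω N p) {q : E 2} (hq : q ∈ closure Ω)
    (hq' : q ∈ closure (closure Ω)ᶜ) (hqp : q ≠ p) :
    rB k ct N (G.lg p q) = 0 ∧
      ‖G.lg p q‖ * (G.T p (G.lg p q)).det = sn k ‖G.lg p q‖ := by
  have hv : G.lg p q ≠ 0 := by
    intro h0
    apply hqp
    have := G.ex_lg p q
    rw [h0, G.ex_zero] at this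
    exact this.symm
  have hlgc : Continuous fun x : E 2 => G.lg p x :=
    G.lg_smooth.continuous.comp (continuous_const.prodMk continuous_id)
  have hne : ∀ᶠ x in 𝓝 q, G.lg p x ≠ 0 := hlgc.continuousAt.eventually_ne hv
  have e1 : rI G k ct N p (G.lg p q) = 0 := by
    have hc : ContinuousAt (fun x => rI G k ct N p (G.lg p x)) q :=
      rcont_rI continuousAt_const continuousAt_const hlgc.continuousAt hv
    have hNe : (𝓝[Ω] q).NeBot := mem_closure_iff_nhdsWithin_neBot.1 hq
    refine tendsto_nhds_unique (hc.tendsto.mono_left (nhdsWithin_le_nhds (s := Ω))) ?_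
    refine Tendsto.congr' ?_ tendsto_const_nhds
    filter_upwards [nhdsWithin_le_nhds hne, self_mem_nhdsWithin] with x hx hxΩ
    exact (hR.inside _ hx (by rwa [G.ex_lg])).symm
  have e2 : max 0 (rB k ct N (G.lg p q)) = 0 := by
    have hc : ContinuousAt (fun x => max 0 (rB k ct N (G.lg p x))) q :=
      continuousAt_const.max (rcont_rB continuousAt_const hlgc.continuousAt hv)
    have hNe : (𝓝[(closure Ω)ᶜ] q).NeBot := mem_closure_iff_nhdsWithin_neBot.1 hq'
    refine tendsto_nhds_unique (hc.tendsto.mono_left (nhdsWithin_le_nhds (s := (closure Ω)ᶜ))) ?_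
    refine Tendsto.congr' ?_ tendsto_const_nhds
    filter_upwards [nhdsWithin_le_nhds hne, self_mem_nhdsWithin] with x hx hxΩ
    exact (hR.outside _ hx (by rw [G.ex_lg]; exact hxΩ)).symm
  have h1 := rI_eq (G := G) (k := k) (ct := ct) N p (G.lg p q)
  rw [e1, e2] at h1
  have h2 := jv_ge hk hG p hv
  have h3 : rs N (G.lg p q) * k ≤ 1 * k := mul_le_mul_of_nonneg_right (rs_le hN _) hk
  have h4 : rB k ct N (G.lg p q) ≤ 0 := max_eq_left_iff.1 e2
  have h5 : 0 ≤ (ct - rs N (G.lg p q) * k) *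
      (‖G.lg p q‖ * (G.T p (G.lg p q)).det - sn k ‖G.lg p q‖) :=
    mul_nonneg (by linarith) (by linarith)
  constructor
  · linarith
  · have h6 : (ct - rs N (G.lg p q) * k) *
      (‖G.lg p q‖ * (G.T p (G.lg p q)).det - sn k ‖G.lg p q‖) = 0 := by linarith
    rcases mul_eq_zero.1 h6 with h7 | h7
    · linarith
    · linarith

end Vale.Agent.P219.N2
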