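import Vale.Agent.P219.N2.RigDef

/-! # `n = 2`, equality case: the total deficit -/

open MeasureTheory Set Metric Filter Topology
open scoped ENNReal ContDiff

noncomputable section

namespace Vale.Agent.P219.N2

open Vale.Agent.P219.TP Vale.Agent.P219.TPH

variable {G : Geo 2} {k ct : ℝ}

theorem rs_finite {h : E 2 → ℝ} (hc : HasCompactSupport h) : G.vol {x | 0 < h x} ≠ ⊤ := by
  refine ne_top_of_le_ne_top (G.vol_compact_lt_top hc.isCompact).ne (measure_mono fun x hx => ?_)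
  exact subset_tsupport h (ne_of_gt (show 0 < h x from hx))

theorem rs_finite1 {h : E 2 → ℝ} (hc : HasCompactSupport h) : G.vol {x | h x = 1} ≠ ⊤ := by
  refine ne_top_of_le_ne_top (rs_finite (G := G) hc) (measure_mono fun x hx => ?_)
  have : h x = 1 := hx
  show 0 < h x
  rw [this]
  exact one_pos

/-- The lower bound of the pair integral. -/
theorem rpair_lower (hk : 0 ≤ k) (hG : MonoSn G k) {h : E 2 → ℝ} (hh : ContDiff ℝ 1 h)
    (hc : HasCompactSupport h) (h0 : ∀ x, 0 ≤ h x) :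
    ENNReal.ofReal (2 * sig 2 * V1 G h + k ^ 2 * V1 G h ^ 2) ≤
      ∫⁻ x, ∫⁻ v, Fq G k h (x, v) ∂volume ∂G.vol := by
  rw [← Fp_eq_Fq hh]
  have hm1 : MeasurableSet {x | h x = 1} :=
    (isClosed_eq hh.continuous continuous_const).measurableSet
  have hfin := rs_finite1 (G := G) hc
  have hV : G.vol {x | h x = 1} = ENNReal.ofReal (V1 G h) := by
    unfold V1
    rw [ofReal_measureReal hfin]
  have hV0 : 0 ≤ V1 G h := measureReal_nonneg
  have hsig : (volume : Measure (E 2)).toSphere univ = ENNReal.ofReal (sig 2) := by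
    unfold sig
    rw [ofReal_measureReal]
  have hsig0 : 0 ≤ sig 2 := measureReal_nonneg
  have hlow : ∀ x ∈ {x | h x = 1}, ENNReal.ofReal (2 * sig 2 + k ^ 2 * V1 G h) ≤
      ∫⁻ v, Fp G k h (x, v) := by
    intro x hx
    have hx1 : h x = 1 := hx
    refine le_trans ?_ (pair_lower hk hG hh hc h0 x)
    rw [ENNReal.ofReal_add (by positivity) (by positivity), ENNReal.ofReal_mul (by norm_num),
      hx1, mul_one, hsig, ENNReal.ofReal_mul (sq_nonneg k)]
    refine add_le_add le_rfl ?_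
    refine mul_le_mul_right ?_ _
    rw [← hV, ← lintegral_indicator_one hm1]
    refine lintegral_mono fun y => ?_
    by_cases hy : y ∈ {x | h x = 1}
    · have hy1 : h y = 1 := hy
      rw [indicator_of_mem hy, hy1]
      simp
    · rw [indicator_of_notMem hy]
      exact bot_le
  calc ENNReal.ofReal (2 * sig 2 * V1 G h + k ^ 2 * V1 G h ^ 2)
      = ENNReal.ofReal (2 * sig 2 + k ^ 2 * V1 G h) * G.vol {x | h x = 1} := by
        rw [hV, ← ENNReal.ofReal_mul (by positivity)]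
        congr 1
        ring
    _ = ∫⁻ _x in {x | h x = 1}, ENNReal.ofReal (2 * sig 2 + k ^ 2 * V1 G h) ∂G.vol := by
        rw [setLIntegral_const]
    _ ≤ ∫⁻ x in {x | h x = 1}, ∫⁻ v, Fp G k h (x, v) ∂volume ∂G.vol :=
        setLIntegral_mono' hm1 hlow
    _ ≤ _ := setLIntegral_le_lintegral _ _

/-- The total deficit. -/
theorem rtotal (hk : 0 ≤ k) (hG : MonoSn G k) (hct : k ≤ ct) {h : E 2 → ℝ}
    (hh : ContDiff ℝ 1 h) (hc : HasCompactSupport h) {CC : ℝ} (hCC0 : 0 ≤ CC)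
    (hCC : ∀ N : E 2, ‖N‖ = 1 →
      ∫⁻ v, ENNReal.ofReal (‖v‖⁻¹ * max 0 (rB k ct N v)) ≤ ENNReal.ofReal CC)
    {N : E 2 → E 2} (hN : ∀ y, G.D h y = ‖G.D h y‖ • N y) (h0 : ∀ x, 0 ≤ h x) :
    ∫⁻ y, ‖G.D h y‖ₑ * rDD G k ct h (N y) y ∂G.vol +
        ENNReal.ofReal (2 * sig 2 * V1 G h + k ^ 2 * V1 G h ^ 2) ≤
      ENNReal.ofReal (G.per h * (ct * G.vol.real {x | 0 < h x} + CC)) := by
  have hct0 : 0 ≤ ct := hk.trans hct
  have hD : Continuous (G.D h) := PairGe.continuous_D G hh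
  have hDc : HasCompactSupport fun x => G.D h x := by
    refine (hc.fderiv (𝕜 := ℝ)).mono' ?_
    intro x hx
    refine subset_tsupport _ ?_
    rw [Function.mem_support] at hx ⊢
    intro h0
    apply hx
    unfold TP.Geo.D
    rw [h0, ContinuousLinearMap.zero_comp, map_zero]
  have hDi : Integrable (fun x => G.D h x) G.vol := hD.integrable_of_hasCompactSupport hDc
  have hper0 : 0 ≤ G.per h := integral_nonneg fun x => norm_nonneg _
  calc ∫⁻ y, ‖G.D h y‖ₑ * rDD G k ct h (N y) y ∂G.vol +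
        ENNReal.ofReal (2 * sig 2 * V1 G h + k ^ 2 * V1 G h ^ 2)
      ≤ ∫⁻ y, ‖G.D h y‖ₑ * rDD G k ct h (N y) y ∂G.vol +
          ∫⁻ x, ∫⁻ v, Fq G k h (x, v) ∂volume ∂G.vol :=
        add_le_add le_rfl (rpair_lower hk hG hh hc h0)
    _ ≤ ∫⁻ y, (‖G.D h y‖ₑ * rDD G k ct h (N y) y + ∫⁻ v, Fq G k h (y, v)) ∂G.vol :=
        le_lintegral_add _ _
    _ ≤ ∫⁻ y, ‖G.D h y‖ₑ * (ENNReal.ofReal ct * G.vol {x | 0 < h x} +
          ENNReal.ofReal CC) ∂G.vol :=
        lintegral_mono fun y => rDD_add hk hG hct hh hCC hN h0 y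
    _ = _ := by
        rw [lintegral_mul_const _ hD.enorm.measurable, ENNReal.ofReal_mul hper0]
        have e1 : ∫⁻ y, ‖G.D h y‖ₑ ∂G.vol = ENNReal.ofReal (G.per h) := by
          unfold TP.Geo.per
          rw [ofReal_integral_norm_eq_lintegral_enorm hDi]
        have e2 : G.vol {x | 0 < h x} = ENNReal.ofReal (G.vol.real {x | 0 < h x}) := by
          rw [ofReal_measureReal (rs_finite hc)]
        rw [e1, e2, ← ENNReal.ofReal_mul hct0, ← ENNReal.ofReal_add (by positivity) hCC0]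

theorem r_v0_le {h : E 2 → ℝ} (hc : HasCompactSupport h)
    (h1 : ∀ x, h x ≤ 1) :
    G.vol.real {x | 0 < h x} ≤ V1 G h + G.vol.real {x | 0 < h x ∧ h x < 1} := by
  have hsub : {x | 0 < h x} ⊆ {x | h x = 1} ∪ {x | 0 < h x ∧ h x < 1} := by
    intro x hx
    rcases (h1 x).lt_or_eq with h2 | h2
    · right; exact ⟨hx, h2⟩
    · left; exact h2
  have hf : G.vol ({x | h x = 1} ∪ {x | 0 < h x ∧ h x < 1}) ≠ ⊤ := by
    refine (measure_union_lt_top (rs_finite1 hc).lt_top ?_).ne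
    exact (measure_mono fun x hx => hx.1).trans_lt (rs_finite hc).lt_top
  exact (measureReal_mono hsub hf).trans (measureReal_union_le _ _)

/-- The total deficit of a minimising sequence tends to `0`. -/
theorem rtotal_tendsto (hk : 0 ≤ k) (hG : MonoSn G k) (hct : k ≤ ct) {CC : ℝ} (hCC0 : 0 ≤ CC)
    (hCC : ∀ N : E 2, ‖N‖ = 1 →
      ∫⁻ v, ENNReal.ofReal (‖v‖⁻¹ * max 0 (rB k ct N v)) ≤ ENNReal.ofReal CC)
    {A V : ℝ} (hA : 0 ≤ A) (hV : 0 ≤ V)
    (halg : A * (ct * V + CC) ≤ 2 * sig 2 * V + k ^ 2 * V ^ 2)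
    {h : ℕ → E 2 → ℝ} (hh : ∀ j, ContDiff ℝ 1 (h j)) (hc : ∀ j, HasCompactSupport (h j))
    (h0 : ∀ j x, 0 ≤ h j x) (h1 : ∀ j x, h j x ≤ 1)
    {N : E 2 → E 2} (hN : ∀ j y, G.D (h j) y = ‖G.D (h j) y‖ • N y)
    (hper : ∀ δ > 0, ∀ᶠ j in atTop, G.per (h j) ≤ A + δ)
    (hV1 : Tendsto (fun j => V1 G (h j)) atTop (𝓝 V))
    (hlay : Tendsto (fun j => G.vol.real {x | 0 < h j x ∧ h j x < 1}) atTop (𝓝 0)) :
    ∀ δ > 0, ∀ᶠ j in atTop,
      ∫⁻ y, ‖G.D (h j) y‖ₑ * rDD G k ct (h j) (N y) y ∂G.vol ≤ ENNReal.ofReal δ := by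
  intro δ hδ
  have hct0 : 0 ≤ ct := hk.trans hct
  have hB : 0 ≤ ct * V + CC := by positivity
  set η : ℝ := δ / (2 * (ct * V + CC + 1)) with hη
  have hη0 : 0 < η := by positivity
  have hlim : Tendsto (fun j => (A + η) * (ct * (V1 G (h j) +
      G.vol.real {x | 0 < h j x ∧ h j x < 1}) + CC) -
      (2 * sig 2 * V1 G (h j) + k ^ 2 * V1 G (h j) ^ 2)) atTop
      (𝓝 ((A + η) * (ct * (V + 0) + CC) - (2 * sig 2 * V + k ^ 2 * V ^ 2))) :=
    ((((hV1.add hlay).const_mul ct).add_const CC).const_mul (A + η)).sub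
      ((hV1.const_mul (2 * sig 2)).add ((hV1.pow 2).const_mul (k ^ 2)))
  have hval : (A + η) * (ct * (V + 0) + CC) - (2 * sig 2 * V + k ^ 2 * V ^ 2) < δ := by
    have e1 : η * (ct * V + CC) < δ := by
      rw [hη, div_mul_eq_mul_div, div_lt_iff₀ (by positivity)]
      have : 0 ≤ δ * (ct * V + CC) := by positivity
      nlinarith
    rw [add_zero]
    nlinarith
  filter_upwards [hper η hη0, hlim.eventually (gt_mem_nhds hval)] with j hj1 hj2
  have ht := rtotal hk hG hct (hh j) (hc j) hCC0 hCC (hN j) (h0 j)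
  have hsig0 : 0 ≤ sig 2 := measureReal_nonneg
  have hV10 : 0 ≤ V1 G (h j) := measureReal_nonneg
  have hb0 : 0 ≤ 2 * sig 2 * V1 G (h j) + k ^ 2 * V1 G (h j) ^ 2 := by positivity
  have h3 := ENNReal.le_sub_of_add_le_right ENNReal.ofReal_ne_top ht
  rw [← ENNReal.ofReal_sub _ hb0] at h3
  refine h3.trans (ENNReal.ofReal_le_ofReal ?_)
  have h4 := r_v0_le (G := G) (hc j) (h1 j)
  have h5 : G.per (h j) * (ct * G.vol.real {x | 0 < h j x} + CC) ≤
      (A + η) * (ct * (V1 G (h j) + G.vol.real {x | 0 < h j x ∧ h j x < 1}) + CC) := by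
    refine mul_le_mul hj1 ?_ ?_ (by positivity)
    · have := mul_le_mul_of_nonneg_left h4 hct0
      linarith
    · have : 0 ≤ G.vol.real {x | 0 < h j x} := measureReal_nonneg
      positivity
  linarith

/-- A point near `p` with small deficit. -/
theorem rselect {h : ℕ → E 2 → ℝ} (hh : ∀ j, ContDiff ℝ 1 (h j))
    (hc : ∀ j, HasCompactSupport (h j)) {N : E 2 → E 2}
    (htot : ∀ δ > 0, ∀ᶠ j in atTop,
      ∫⁻ y, ‖G.D (h j) y‖ₑ * rDD G k ct (h j) (N y) y ∂G.vol ≤ ENNReal.ofReal δ)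
    {U : Set (E 2)} (hU : MeasurableSet U) {c : ℝ} (hc0 : 0 < c)
    (hlow : ∀ᶠ j in atTop, c ≤ ∫ y in U, ‖G.D (h j) y‖ ∂G.vol) {ε : ℝ} (hε : 0 < ε) (J : ℕ) :
    ∃ j, J ≤ j ∧ ∃ y ∈ U, G.D (h j) y ≠ 0 ∧ rDD G k ct (h j) (N y) y ≤ ENNReal.ofReal ε := by
  by_contra hcon
  push Not at hcon
  have hcε : 0 < c * ε / 2 := by positivity
  obtain ⟨j, hj1, hj2, hj3⟩ := ((htot _ hcε).and (hlow.and (eventually_ge_atTop J))).exists
  have hD : Continuous (G.D (h j)) := PairGe.continuous_D G (hh j)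
  have hDc : HasCompactSupport fun x => G.D (h j) x := by
    refine ((hc j).fderiv (𝕜 := ℝ)).mono' ?_
    intro x hx
    refine subset_tsupport _ ?_
    rw [Function.mem_support] at hx ⊢
    intro h0
    apply hx
    unfold TP.Geo.D
    rw [h0, ContinuousLinearMap.zero_comp, map_zero]
  have hDi : Integrable (fun x => G.D (h j) x) G.vol := hD.integrable_of_hasCompactSupport hDc
  have e1 : ∫⁻ y in U, ‖G.D (h j) y‖ₑ ∂G.vol =
      ENNReal.ofReal (∫ y in U, ‖G.D (h j) y‖ ∂G.vol) :=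
    (ofReal_integral_norm_eq_lintegral_enorm hDi.integrableOn).symm
  have h2 : ENNReal.ofReal (c * ε) ≤
      ∫⁻ y, ‖G.D (h j) y‖ₑ * rDD G k ct (h j) (N y) y ∂G.vol := by
    calc ENNReal.ofReal (c * ε) = ENNReal.ofReal c * ENNReal.ofReal ε :=
          ENNReal.ofReal_mul hc0.le
      _ ≤ (∫⁻ y in U, ‖G.D (h j) y‖ₑ ∂G.vol) * ENNReal.ofReal ε := by
          rw [e1]
          exact mul_le_mul_left (ENNReal.ofReal_le_ofReal hj2) _
      _ = ∫⁻ y in U, ‖G.D (h j) y‖ₑ * ENNReal.ofReal ε ∂G.vol :=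
          (lintegral_mul_const _ hD.enorm.measurable).symm
      _ ≤ ∫⁻ y in U, ‖G.D (h j) y‖ₑ * rDD G k ct (h j) (N y) y ∂G.vol := by
          refine setLIntegral_mono' hU fun y hy => ?_
          by_cases hy0 : G.D (h j) y = 0
          · rw [hy0, enorm_zero, zero_mul]
            exact bot_le
          · exact mul_le_mul_right (hcon j hj3 y hy hy0).le _
      _ ≤ _ := setLIntegral_le_lintegral _ _
  have h3 := h2.trans hj1
  rw [ENNReal.ofReal_le_ofReal_iff hcε.le] at h3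
  linarith

end Vale.Agent.P219.N2
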