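import Vale.Agent.P219.N2.Pair

/-! # `n = 2`: upper bound of the pair integral -/

open MeasureTheory Set Metric
open scoped ENNReal ContDiff

namespace Vale.Agent.P219.N2

open Vale.Agent.P219.TP Vale.Agent.P219.TPH

variable {G : Geo 2} {k : ℝ}

/-- The pointwise inequality. -/
theorem point_le {ct s r j : ℝ} (hk : 0 ≤ k) (hct : k ≤ ct) (hs : s ≤ 1)
    (hj : sn k r ≤ j) : s * (k * j + 1 + Real.exp (-(k * r))) ≤
      ct * j + (s * (1 + cs k r) - ct * sn k r) := by
  have h1 := cs_sub_sn k r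
  have h2 : s * k ≤ ct := by nlinarith
  have h3 : ct * j + (s * (1 + cs k r) - ct * sn k r) -
      s * (k * j + 1 + Real.exp (-(k * r))) = (ct - s * k) * (j - sn k r) := by
    rw [← h1]
    ring
  have h4 : 0 ≤ (ct - s * k) * (j - sn k r) := mul_nonneg (by linarith) (by linarith)
  linarith

theorem Fq_ray {h : E 2 → ℝ} (x : E 2) {u : E 2} (hu : ‖u‖ = 1) {r : ℝ} (hr : 0 < r) :
    ENNReal.ofReal (r ^ (2 - 1)) * Fq G k h (x, r • u) =
      ENNReal.ofReal (if h x < h (G.ex x (r • u)) then max 0 (inner ℝ (G.D h x) u) *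
        (k * jJ G x u r + 1 + Real.exp (-(k * r))) else 0) := by
  have hn1 : ‖r • u‖ = r := by rw [norm_smul, hu, mul_one, Real.norm_eq_abs, abs_of_pos hr]
  unfold Fq
  rw [← ENNReal.ofReal_mul (by positivity)]
  congr 1
  simp only [hn1, smul_smul, inv_mul_cancel₀ hr.ne', one_smul, Nat.add_one_sub_one, pow_one]
  split_ifs with h1
  · unfold jJ
    rw [← mul_assoc, mul_inv_cancel₀ hr.ne', one_mul]
  · rw [mul_zero]

theorem pair_upper (hk : 0 ≤ k) (hG : MonoSn G k) {ct C : ℝ} {f : ℝ → ℝ} (hct : k ≤ ct)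
    (hS1 : ∀ s ∈ Icc (0 : ℝ) 1, ∫⁻ r in Ioi (0 : ℝ),
      ENNReal.ofReal (s * (1 + cs k r) - ct * sn k r) ≤ ENNReal.ofReal (2 * (s * f s)))
    (hf : Continuous f) (hf0 : ∀ s ∈ Icc (0 : ℝ) 1, 0 ≤ f s)
    (hC : ∀ e : E 2, ‖e‖ = 1 → ∫ u : sphere (0 : E 2) 1,
      max 0 (inner ℝ e (u : E 2)) * f (max 0 (inner ℝ e (u : E 2)))
        ∂((volume : Measure (E 2)).toSphere) ≤ C)
    {h : E 2 → ℝ} (hh : ContDiff ℝ 1 h) (x : E 2) :
    ∫⁻ v, Fq G k h (x, v) ≤ ENNReal.ofReal ‖G.D h x‖ *
      (ENNReal.ofReal ct * G.vol {y | h x < h y} + ENNReal.ofReal (2 * C)) := by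
  have hct0 : 0 ≤ ct := hk.trans hct
  have hm : Measurable fun v : E 2 => Fq G k h (x, v) :=
    (measurable_Fq hh).comp (measurable_const.prodMk measurable_id)
  rw [polar (n := 2) (by norm_num) hm]
  have hcg : ∀ u : sphere (0 : E 2) 1,
      ∫⁻ r in Ioi (0 : ℝ), ENNReal.ofReal (r ^ (2 - 1)) * Fq G k h (x, r • (u : E 2)) =
      ∫⁻ r in Ioi (0 : ℝ), ENNReal.ofReal (if h x < h (G.ex x (r • (u : E 2))) then
        max 0 (inner ℝ (G.D h x) (u : E 2)) *
        (k * jJ G x u r + 1 + Real.exp (-(k * r))) else 0) := fun u =>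
    setLIntegral_congr_fun measurableSet_Ioi fun r hr => Fq_ray x (by simp) hr
  simp only [hcg]
  rcases eq_or_ne (G.D h x) 0 with hD | hD
  · simp [hD]
  set d : ℝ := ‖G.D h x‖ with hd
  have hd0 : 0 < d := norm_pos_iff.2 hD
  set e : E 2 := d⁻¹ • G.D h x with he
  have he1 : ‖e‖ = 1 := by
    rw [he, norm_smul, norm_inv, Real.norm_eq_abs, abs_of_pos hd0, ← hd, inv_mul_cancel₀ hd0.ne']
  have hDe : G.D h x = d • e := by rw [he, smul_smul, mul_inv_cancel₀ hd0.ne', one_smul]
  set S : E 2 → ℝ := fun u => max 0 (inner ℝ e u) with hS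
  have hSd : ∀ u : E 2, max 0 (inner ℝ (G.D h x) u) = d * S u := by
    intro u
    rw [hDe, real_inner_smul_left]
    show max 0 (d * inner ℝ e u) = d * max 0 (inner ℝ e u)
    rw [mul_max_of_nonneg _ _ hd0.le, mul_zero]
  have hS01 : ∀ u : sphere (0 : E 2) 1, S u ∈ Icc (0 : ℝ) 1 := by
    intro u
    refine ⟨le_max_left _ _, max_le zero_le_one ?_⟩
    have := real_inner_le_norm e (u : E 2)
    rw [he1] at this
    simpa using this
  have hU : MeasurableSet {y | h x < h y} := (isOpen_lt continuous_const hh.continuous).measurableSet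
  set U : Set (E 2) := {y | h x < h y} with hUdef
  have hjc : ∀ u : E 2, Continuous (jJ G x u) := fun u => (jJ_contDiff G x u).continuous
  have hexc : ∀ u : E 2, Continuous fun r : ℝ => G.ex x (r • u) := fun u =>
    G.ex_smooth.continuous.comp (continuous_const.prodMk (continuous_id.smul continuous_const))
  -- the bound on a ray
  have hray : ∀ u : sphere (0 : E 2) 1,
      ∫⁻ r in Ioi (0 : ℝ), ENNReal.ofReal (if h x < h (G.ex x (r • (u : E 2))) then
        max 0 (inner ℝ (G.D h x) (u : E 2)) *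
        (k * jJ G x u r + 1 + Real.exp (-(k * r))) else 0) ≤
      ENNReal.ofReal d * (ENNReal.ofReal ct * (∫⁻ r in Ioi (0 : ℝ),
        ENNReal.ofReal (jJ G x u r) * U.indicator (fun _ => 1) (G.ex x (r • (u : E 2)))) +
        ENNReal.ofReal (2 * (S u * f (S u)))) := by
    intro u
    have hu : ‖(u : E 2)‖ = 1 := by simp
    have h1 : ∀ r ∈ Ioi (0 : ℝ), ENNReal.ofReal (if h x < h (G.ex x (r • (u : E 2))) then
        max 0 (inner ℝ (G.D h x) (u : E 2)) *
        (k * jJ G x u r + 1 + Real.exp (-(k * r))) else 0) ≤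
        ENNReal.ofReal d * (ENNReal.ofReal ct *
          (ENNReal.ofReal (jJ G x u r) * U.indicator (fun _ => 1) (G.ex x (r • (u : E 2)))) +
          ENNReal.ofReal (S u * (1 + cs k r) - ct * sn k r)) := by
      intro r hr
      have hr0 : (0 : ℝ) < r := hr
      have hj := jJ_ge hk hG x hu hr0
      have hj0 : 0 ≤ jJ G x u r := (sn_pos hk hr0).le.trans hj
      split_ifs with hlt
      · have hmem : G.ex x (r • (u : E 2)) ∈ U := hlt
        rw [indicator_of_mem hmem, mul_one, hSd, mul_assoc, ENNReal.ofReal_mul hd0.le]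
        gcongr
        rw [← ENNReal.ofReal_mul hct0]
        refine (ENNReal.ofReal_le_ofReal (point_le hk hct (hS01 u).2 hj)).trans ?_
        exact ENNReal.ofReal_add_le
      · rw [ENNReal.ofReal_zero]
        exact zero_le
    refine (setLIntegral_mono' measurableSet_Ioi h1).trans ?_
    have hm1 : Measurable fun r : ℝ => ENNReal.ofReal (jJ G x u r) *
        U.indicator (fun _ => (1 : ℝ≥0∞)) (G.ex x (r • (u : E 2))) :=
      (hjc u).measurable.ennreal_ofReal.mul
        ((measurable_const.indicator hU).comp (hexc u).measurable)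
    rw [lintegral_const_mul' _ _ ENNReal.ofReal_ne_top, lintegral_add_left (hm1.const_mul _),
      lintegral_const_mul' _ _ ENNReal.ofReal_ne_top]
    gcongr
    exact hS1 _ (hS01 u)
  refine (lintegral_mono hray).trans ?_
  have hm2 : Measurable fun u : sphere (0 : E 2) 1 => ENNReal.ofReal (2 * (S u * f (S u))) := by
    have hSc : Continuous fun u : sphere (0 : E 2) 1 => S u := by
      simp only [hS]
      fun_prop
    exact (by fun_prop : Continuous fun u : sphere (0 : E 2) 1 =>
      2 * (S u * f (S u))).measurable.ennreal_ofReal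
  rw [lintegral_const_mul' _ _ ENNReal.ofReal_ne_top, lintegral_add_right _ hm2,
    lintegral_const_mul' _ _ ENNReal.ofReal_ne_top, ← polar_area G x
      (F := U.indicator fun _ => 1) (measurable_const.indicator hU),
    lintegral_indicator_const hU, one_mul]
  gcongr
  have hSc : Continuous fun u : sphere (0 : E 2) 1 => S u := by
    simp only [hS]
    fun_prop
  have hSf : Continuous fun u : sphere (0 : E 2) 1 => 2 * (S u * f (S u)) := by fun_prop
  rw [← ofReal_integral_eq_lintegral_ofReal]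
  · rw [integral_const_mul]
    exact ENNReal.ofReal_le_ofReal (mul_le_mul_of_nonneg_left (hC e he1) zero_le_two)
  · exact hSf.integrable_of_hasCompactSupport (HasCompactSupport.of_compactSpace _)
  · exact Filter.Eventually.of_forall fun u => mul_nonneg zero_le_two
      (mul_nonneg (hS01 u).1 (hf0 _ (hS01 u)))

end Vale.Agent.P219.N2
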